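import Crest.Agent.R182.H.Ult
import Crest.Agent.R182.B.SP

/-! R182/H/Tube (owner helper36): the speeds along `exp (W 0)` vanish. -/

set_option autoImplicit false
set_option linter.unusedVariables false
set_option linter.unusedSectionVars false
open Set Filter Topology MeasureTheory Matrix Crest.GroupTheory
open scoped Pointwise commutatorElement ENNReal InnerProductSpace

noncomputable section
namespace Crest.Agent.R182

namespace Model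
variable {h k : ℕ} (M : Model h k)

theorem hta_class {M : Model h k} {β : Fin k → ℝ} (A : M.Aff β) {y z : M.G} {b : ℂ} {r : ℝ} (ht : M.tv y = M.tv z)
    (hy : ‖A.bb y - b‖ ≤ Real.exp (β ⬝ᵥ M.chi y + r)) (hz : ‖A.bb z - b‖ ≤ Real.exp (β ⬝ᵥ M.chi z + r)) (hr : 0 ≤ r) :
    ‖A.bb (y⁻¹ * z)‖ ≤ Real.exp (r + 1) ∧ -(r + 1) ≤ β ⬝ᵥ M.chi (y⁻¹ * z) := by
  have hc : M.chi z = M.chi y := by
    funext i
    simp only [chi, ht]
  refine ⟨?_, ?_⟩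
  · have h1 := A.bb_mul y (y⁻¹ * z)
    rw [mul_inv_cancel_left] at h1
    have h2 : (A.lam y : ℂ) * A.bb (y⁻¹ * z) = (A.bb z - b) - (A.bb y - b) := by rw [h1]; ring
    have h3 := norm_sub_le (A.bb z - b) (A.bb y - b)
    rw [← h2, norm_mul, A.norm_lam] at h3
    rw [hc] at hz
    rw [Real.exp_add] at hy hz
    have h4 : (2 : ℝ) ≤ Real.exp 1 := by linarith [Real.add_one_le_exp (1 : ℝ)]
    refine le_of_mul_le_mul_left ?_ (Real.exp_pos (β ⬝ᵥ M.chi y))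
    rw [Real.exp_add r 1]
    have h5 := mul_le_mul_of_nonneg_left h4 (mul_pos (Real.exp_pos (β ⬝ᵥ M.chi y)) (Real.exp_pos r)).le
    linarith
  · rw [M.chi_mul, M.chi_inv, hc, neg_add_cancel, dotProduct_zero]
    linarith

/-- Almost every `x` lies in `exp '' Gv ρ ⊆ ballR (Λ ρ)` (`lw_compl`, `len_Box 1`), so `tv (φ (p x)) - tv (φ p)` takes at most
`(2 ⌈K Λ ρ + K⌉ + 1) ^ k ≤ B' exp (c ρ / 2)` values (`card_boxZ`, `natAbs_tv_le`, `apiloga_pow`).  On a non-empty class take `y = φ (p x₀)`: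
`bb z - bb y = lam y * bb (y⁻¹ * z)`, so `‖bb (y⁻¹ z)‖ ≤ 2 exp r ≤ exp (r + 1)` and `chi (y⁻¹ z) = 0`; `sp`. -/
theorem spt (K : ℝ) {β : Fin k → ℝ} (A : M.Aff β) : ∃ B c : ℝ, 1 ≤ B ∧ 0 < c ∧ ∀ (f : M.QP K) (p : M.G) (b : ℂ) (ρ r : ℝ), 1 ≤ ρ → 0 ≤ r →
    M.lw M.E (M.Gv ρ) {x | ‖A.bb (f.φ (p * x)) - b‖ ≤ Real.exp (β ⬝ᵥ M.chi (f.φ (p * x)) + r)} ≤
      ENNReal.ofReal (B * Real.exp (B * r - c * ρ)) := by
  obtain ⟨B, c, hB, hc, hsp⟩ := M.sp K A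
  obtain ⟨Λ, hΛ, hlen⟩ := M.len_Box 1
  obtain ⟨C, hC, hpow⟩ := apiloga_pow (half_pos hc) k
  set D : ℝ := 2 * |K| * Λ + 2 * |K| + 3 with hD
  have hD0 : 0 ≤ D := by positivity
  have hB' : 0 ≤ D ^ k * C * (B * Real.exp B) := by positivity
  refine ⟨B + D ^ k * C * (B * Real.exp B), c / 2, by linarith, half_pos hc, fun f p b ρ r hρ hr => ?_⟩
  have hK : 0 ≤ K := zero_le_one.trans f.one_le
  set T := {x | ‖A.bb (f.φ (p * x)) - b‖ ≤ Real.exp (β ⬝ᵥ M.chi (f.φ (p * x)) + r)} with hT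
  set m := ⌈K * (Λ * ρ) + K⌉₊ with hm
  set I := Fintype.piFinset fun _ : Fin k => Finset.Icc (-(m : ℤ)) m with hI
  have hsub : T ⊆ (⋃ a ∈ I, {x | x ∈ T ∧ M.tv ((f.φ p)⁻¹ * f.φ (p * x)) = a}) ∪ (M.exp '' (M.E ∩ M.Gv ρ))ᶜ := by
    intro x hx
    by_cases hS : x ∈ M.exp '' (M.E ∩ M.Gv ρ)
    · refine Or.inl (mem_iUnion₂.2 ⟨_, mem_boxZ.2 (M.natAbs_tv_le ?_), hx, rfl⟩)
      obtain ⟨X, hX, rfl⟩ := hS
      have h1 := pma_step hK f.lφ p ((hlen ρ hρ).2 ⟨X, by rw [one_smul]; exact hX.2, rfl⟩)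
      have h2 : (M.len ((f.φ p)⁻¹ * f.φ (p * M.exp X)) : ℝ) ≤ m := le_trans h1 (Nat.le_ceil _)
      exact_mod_cast h2
    · exact Or.inr hS
  have hcl : ∀ a ∈ I, M.lw M.E (M.Gv ρ) {x | x ∈ T ∧ M.tv ((f.φ p)⁻¹ * f.φ (p * x)) = a} ≤
      ENNReal.ofReal (B * Real.exp (B * (r + 1) - c * ρ)) := by
    intro a _
    rcases eq_empty_or_nonempty {x | x ∈ T ∧ M.tv ((f.φ p)⁻¹ * f.φ (p * x)) = a} with h0 | ⟨x₀, h1, h2⟩
    · rw [h0, measure_empty]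
      exact zero_le
    · refine le_trans (measure_mono fun x hx => ?_) (hsp f p (f.φ (p * x₀)) ρ (r + 1) hρ (by linarith))
      refine hta_class A ?_ h1 hx.1 hr
      have h3 := h2.trans hx.2.symm
      rw [M.tv_mul, M.tv_mul] at h3
      exact add_left_cancel h3
  refine (measure_mono hsub).trans ((measure_union_le _ _).trans ?_)
  rw [M.lw_compl M.E (M.isCompact_Gv ρ), add_zero]
  refine (measure_biUnion_finset_le _ _).trans ((Finset.sum_le_card_nsmul _ _ _ hcl).trans ?_)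
  rw [hI, card_boxZ, nsmul_eq_mul, ← ENNReal.ofReal_natCast, ← ENNReal.ofReal_mul (Nat.cast_nonneg _)]
  refine ENNReal.ofReal_le_ofReal ?_
  have h1 : (m : ℝ) < K * (Λ * ρ) + K + 1 := Nat.ceil_lt_add_one (by positivity)
  have h2 : 2 * (m : ℝ) + 1 ≤ D * (1 + ρ) := by
    rw [hD, abs_of_nonneg hK]
    nlinarith [mul_nonneg hK (by linarith : 0 ≤ Λ), mul_nonneg hK (by linarith : 0 ≤ ρ)]
  have h3 : (((2 * m + 1) ^ k : ℕ) : ℝ) ≤ D ^ k * (C * Real.exp (c / 2 * ρ)) := by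
    push_cast
    refine (pow_le_pow_left₀ (by positivity) h2 k).trans ?_
    rw [mul_pow]
    exact mul_le_mul_of_nonneg_left (hpow ρ (by linarith)) (by positivity)
  refine (mul_le_mul_of_nonneg_right h3 (by positivity)).trans ?_
  have e : D ^ k * (C * Real.exp (c / 2 * ρ)) * (B * Real.exp (B * (r + 1) - c * ρ)) =
      D ^ k * C * (B * Real.exp B) * Real.exp (B * r - c / 2 * ρ) := by
    rw [show B * (r + 1) - c * ρ = B + (B * r - c / 2 * ρ) - c / 2 * ρ by ring, Real.exp_sub, Real.exp_add]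
    field_simp
  rw [e]
  refine mul_le_mul (by linarith) (Real.exp_le_exp.2 ?_) (Real.exp_pos _).le (by linarith)
  nlinarith [mul_nonneg hB' hr]

/-- the heights along `p * x ^ j` are not close to linear at the check points -/
def Bad (φ : M.G → M.G) (x : M.G) (N q : ℕ) : Set M.G :=
  {p | ∃ i ≤ N, (q : ℝ) < ‖M.cc φ (x ^ (i * q)) p - ((i : ℝ) / N) • M.cc φ (x ^ (N * q)) p‖}

theorem measurableSet_Bad {φ : M.G → M.G} (hφ : Measurable φ) (x : M.G) (N q : ℕ) : MeasurableSet (M.Bad φ x N q) := by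
  have h1 : ∀ g, Measurable (M.cc φ g) := fun g =>
    (M.measurable_chi.comp (hφ.comp (measurable_mul_const g))).sub (M.measurable_chi.comp hφ)
  have h2 : M.Bad φ x N q = ⋃ i ≤ N, {p | (q : ℝ) < ‖M.cc φ (x ^ (i * q)) p - ((i : ℝ) / N) • M.cc φ (x ^ (N * q)) p‖} := by
    ext p
    simp only [Bad, mem_ofPred_eq, mem_iUnion, exists_prop]
  rw [h2]
  refine MeasurableSet.iUnion fun i => MeasurableSet.iUnion fun _ => measurableSet_lt measurable_const ?_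
  have h3 := h1 (x ^ (i * q))
  have h4 := h1 (x ^ (N * q))
  fun_prop

/-- `(exp X ^ n)⁻¹ * exp Y * exp X ^ n = exp Z` with `Z ∈ E` (`conj`, `Ad_E`) and `Z = bch (bch (-(n • X)) Y) (n • X)` (`exp_zpow`, `norm_bch_le` twice,
`norm_Qi`); `len_exp_E` -/
theorem len_conj_Gv (X : V h) : ∃ B : ℝ, 1 ≤ B ∧ ∀ (n : ℕ) (ρ : ℝ), 1 ≤ ρ → ∀ Y ∈ M.Gv ρ,
    (M.len ((M.exp X ^ n)⁻¹ * M.exp Y * M.exp X ^ n) : ℝ) ≤ B * (ρ + Real.log (1 + n)) := by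
  obtain ⟨B₁, hB₁, h1⟩ := M.norm_Qi
  obtain ⟨B, hB, h2⟩ := M.Qb_calc
  obtain ⟨Λ, hΛ, h3⟩ := M.len_exp_E
  have hX := norm_nonneg X
  have hC : 1 ≤ ‖X‖ + B₁ := by linarith
  refine ⟨Λ * (B * (B * (‖X‖ + B₁))), one_le_mul_of_one_le_of_one_le hΛ (one_le_mul_of_one_le_of_one_le hB
    (one_le_mul_of_one_le_of_one_le hB hC)), fun n ρ hρ Y hY => ?_⟩
  have hn : (0 : ℝ) < 1 + n := by positivity
  have hL : 0 ≤ Real.log (1 + n) := Real.log_nonneg (le_add_of_nonneg_right n.cast_nonneg)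
  set r := (‖X‖ + B₁) * (ρ + Real.log (1 + n)) with hr
  have hr1 : 1 ≤ r := one_le_mul_of_one_le_of_one_le hC (by linarith)
  have hr2 : r ≤ B * r := le_mul_of_one_le_left (by linarith) hB
  have h4 : ‖(n : ℝ) • X‖ ≤ Real.exp r := by
    refine le_trans ?_ (Real.exp_le_exp.2 (show Real.log (1 + n) + ‖X‖ ≤ r by nlinarith))
    rw [Real.exp_add, Real.exp_log hn, norm_smul, Real.norm_natCast]
    exact mul_le_mul (by linarith) (by linarith [Real.add_one_le_exp ‖X‖]) hX hn.le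
  have h5 : ‖Y‖ ≤ Real.exp r := (h1 _ ρ hρ (fun Z hZ => hZ.2) Y hY).trans (Real.exp_le_exp.2 (by nlinarith))
  have h6 : M.exp X ^ n = M.exp ((n : ℝ) • X) := by
    rw [← zpow_natCast, M.exp_zpow, Int.cast_natCast]
  have h7 : (M.exp X ^ n)⁻¹ * M.exp Y * M.exp X ^ n ∈ M.Qb (B * (B * r)) := by
    rw [h6, ← M.exp_neg]
    exact (h2 _ (hr1.trans hr2)).1 _ ((h2 r hr1).1 _ ((M.exp_mem_Qb (by linarith)).2 ((norm_neg _).trans_le h4)) _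
      ((M.exp_mem_Qb (by linarith)).2 h5)) _ (M.Qb_mono hr2 ((M.exp_mem_Qb (by linarith)).2 h4))
  have h8 := M.conj (M.exp X ^ n)⁻¹ Y
  rw [inv_inv] at h8
  have hr3 : 1 ≤ B * (B * r) := one_le_mul_of_one_le_of_one_le hB (hr1.trans hr2)
  rw [h8] at h7 ⊢
  refine le_trans (h3 _ hr3 _ (M.Ad_E _ (M.Gv_subset_E ρ hY)) ((M.exp_mem_Qb (by linarith)).1 h7)) (le_of_eq ?_)
  rw [hr]
  ring

/-- `exists_norm_lgm_le` -/
theorem Aff.norm_bb_exp {M : Model h k} {β : Fin k → ℝ} (A : M.Aff β) : ∃ B : ℝ, 1 ≤ B ∧ ∀ g, ‖A.bb g‖ ≤ Real.exp (B * (M.len g + 1)) := by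
  obtain ⟨B, hB, h1⟩ := M.exists_norm_lgm_le
  have hC := norm_nonneg (LinearMap.toContinuousLinearMap A.ℓ)
  refine ⟨‖LinearMap.toContinuousLinearMap A.ℓ‖ + B + 1, by linarith, fun g => ?_⟩
  have h2 : (0 : ℝ) ≤ M.len g := Nat.cast_nonneg _
  refine ((LinearMap.toContinuousLinearMap A.ℓ).le_opNorm (M.lgm g)).trans ((mul_le_mul
    ((le_add_of_nonneg_right zero_le_one).trans (Real.add_one_le_exp _)) (h1 g) (norm_nonneg _) (Real.exp_pos _).le).trans ?_)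
  rw [← Real.exp_add]
  exact Real.exp_le_exp.2 (by nlinarith)

theorem tubec_bb {M : Model h k} {β : Fin k → ℝ} (A : M.Aff β) (y z : M.G) :
    ‖A.bb z - A.bb y‖ = Real.exp (β ⬝ᵥ M.chi y) * ‖A.bb (y⁻¹ * z)‖ := by
  have := A.bb_mul y (y⁻¹ * z)
  rw [mul_inv_cancel_left] at this
  rw [this, add_sub_cancel_left, norm_mul, A.norm_lam]

set_option maxHeartbeats 1600000 in
theorem tube_det (K : ℝ) {β : Fin k → ℝ} (A : M.Aff β) (X : V h) : ∃ B : ℝ, 1 ≤ B ∧ ∀ (f : M.QP K) (p : M.G) (N q : ℕ) (ρ : ℝ), 1 ≤ N → 1 ≤ q →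
    1 ≤ ρ → β ⬝ᵥ M.cc f.φ (M.exp X ^ (N * q)) p ≤ -(B * (ρ + Real.log (1 + N * q))) → ∀ Y ∈ M.Gv ρ, p * M.exp Y ∉ M.Bad f.φ (M.exp X) N q →
      ‖A.bb (f.φ (p * M.exp Y)) - A.bb (f.φ (p * M.exp X ^ (N * q)))‖ ≤
        Real.exp (β ⬝ᵥ M.chi (f.φ (p * M.exp Y)) + B * (q + Real.log (1 + N * q))) := by
  by_cases hK : 1 ≤ K
  swap
  · exact ⟨1, le_rfl, fun f => absurd f.one_le hK⟩
  obtain ⟨B₁, hB₁, h₁⟩ := M.len_conj_Gv X
  obtain ⟨B₄, hB₄, h₄⟩ := A.norm_bb_image K (M.len (M.exp X)) (by linarith) (Nat.cast_nonneg _)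
  obtain ⟨B₅, hB₅, h₅⟩ := A.norm_bb_exp
  obtain ⟨b, hb⟩ : ∃ z, z = nm β * k := ⟨_, rfl⟩
  have hb0 : 0 ≤ b := hb ▸ mul_nonneg (nm_nonneg β) (Nat.cast_nonneg k)
  have hβ : ∀ (v : Fin k → ℝ) (t : ℝ), ‖v‖ ≤ t → |β ⬝ᵥ v| ≤ b * t := fun v t hv =>
    (abs_dot_le β v).trans (by rw [← mul_assoc, ← hb]; exact mul_le_mul_of_nonneg_left hv hb0)
  generalize M.exp X = x at *
  obtain ⟨Λ, hΛ⟩ : ∃ z : ℝ, z = M.len x := ⟨_, rfl⟩
  rw [← hΛ] at h₄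
  have hΛ0 : 0 ≤ Λ := hΛ ▸ Nat.cast_nonneg _
  obtain ⟨D, hD⟩ : ∃ z, z = K * (B₁ + 1) := ⟨_, rfl⟩
  have hD0 : 0 ≤ D := by rw [hD]; positivity
  obtain ⟨B₃, hB₃⟩ : ∃ z, z = b + b * (K * Λ + K) := ⟨_, rfl⟩
  have hB₃0 : 0 ≤ B₃ := by rw [hB₃]; positivity
  have hbD : 0 ≤ b * D := by positivity
  have hB₅D : 0 ≤ B₅ * (D + 1) := by positivity
  obtain ⟨B, hB⟩ : ∃ z, z = 1 + 2 * (b * D) + B₅ * (D + 1) + B₃ + B₄ := ⟨_, rfl⟩
  refine ⟨B, by linarith, fun f p N q ρ hN hq hρ hs Y hY hg => ?_⟩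
  have h₁' := fun n => h₁ n ρ hρ Y hY
  generalize M.exp Y = e at *
  clear h₁
  obtain ⟨n, hn⟩ : ∃ z, z = N * q := ⟨_, rfl⟩
  rw [← hn] at hs ⊢
  have hq' : (1 : ℝ) ≤ q := Nat.one_le_cast.2 hq
  have hN' : (1 : ℝ) ≤ N := Nat.one_le_cast.2 hN
  have hn' : (N : ℝ) * q = n := by rw [hn, Nat.cast_mul]
  rw [hn'] at hs ⊢
  have hn0 : (0 : ℝ) ≤ n := Nat.cast_nonneg n
  obtain ⟨lg, hlg⟩ : ∃ z, z = Real.log (1 + n) := ⟨_, rfl⟩
  have hlg0 : 0 ≤ lg := hlg ▸ Real.log_nonneg (by linarith)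
  obtain ⟨u, hu⟩ : ∃ z, z = ρ + lg := ⟨_, rfl⟩
  rw [← hlg] at hs ⊢
  rw [← hu] at hs
  have hu1 : 1 ≤ u := by linarith
  have hlip : ∀ g : M.G, (M.len g : ℝ) ≤ B₁ * u → K * M.len g + K ≤ D * u := fun g hg => by
    have := mul_le_mul_of_nonneg_left hg (by linarith : 0 ≤ K)
    rw [hD]; nlinarith
  have l1 := hlip _ (by rw [hu, hlg]; exact h₁' n)
  have l0 := hlip e (by
    have := h₁' 0
    simp only [pow_zero, inv_one, one_mul, mul_one, Nat.cast_zero, add_zero, Real.log_one] at this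
    exact this.trans (by nlinarith))
  have e1 : M.cc f.φ (x ^ n) (p * e) = M.cc f.φ (x ^ n) p + M.cc f.φ ((x ^ n)⁻¹ * e * x ^ n) (p * x ^ n) - M.cc f.φ e p := by
    rw [← M.cc_mul, eq_sub_iff_add_eq', ← M.cc_mul]
    congr 1
    group
  have c1 := abs_le.1 (hβ _ _ ((f.lφ.norm_cc ((x ^ n)⁻¹ * e * x ^ n) (p * x ^ n)).trans l1))
  have c0 := abs_le.1 (hβ _ _ ((f.lφ.norm_cc e p).trans l0))
  have hBu : B * u = u + 2 * (b * D * u) + B₅ * (D + 1) * u + B₃ * u + B₄ * u := by rw [hB]; ring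
  have p1 : 0 ≤ B₅ * (D + 1) * u := by positivity
  have p2 : 0 ≤ B₃ * u := by positivity
  have p3 : 0 ≤ B₄ * u := by positivity
  have p4 : 0 ≤ b * D * u := by positivity
  have c2 : β ⬝ᵥ M.cc f.φ (x ^ n) (p * e) ≤ 0 := by
    rw [e1, dotProduct_sub, dotProduct_add]
    linarith [mul_assoc b D u]
  have c3 : ∀ j ≤ n, β ⬝ᵥ M.cc f.φ (x ^ j) (p * e) ≤ B₃ * q := fun j hj => by
    have hi : j / q ≤ N := Nat.div_le_of_le_mul (by rwa [mul_comm, ← hn])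
    have d1 : ‖M.cc f.φ (x ^ (j / q * q)) (p * e) - (((j / q : ℕ) : ℝ) / N) • M.cc f.φ (x ^ n) (p * e)‖ ≤ q :=
      not_lt.1 fun h => hg ⟨j / q, hi, hn ▸ h⟩
    have d2 := (abs_le.1 (hβ _ _ d1)).2
    rw [dotProduct_sub, dotProduct_smul, smul_eq_mul] at d2
    have d3 := mul_nonpos_of_nonneg_of_nonpos (show 0 ≤ (((j / q : ℕ) : ℝ) / N) by positivity) c2
    have d4 : (M.len (x ^ (j % q)) : ℝ) ≤ q * Λ := by
      have := wl_zpow M.closure_K x (j % q : ℕ)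
      rw [zpow_natCast, Int.natAbs_natCast] at this
      have h2 : ((j % q : ℕ) : ℝ) ≤ q := Nat.cast_le.2 (Nat.mod_lt j hq).le
      calc (M.len (x ^ (j % q)) : ℝ) ≤ (j % q : ℕ) * Λ := by rw [hΛ]; exact_mod_cast this
        _ ≤ _ := by gcongr
    have d5 := (abs_le.1 (hβ _ ((K * Λ + K) * q) ((f.lφ.norm_cc (x ^ (j % q)) (p * e * x ^ (j / q * q))).trans
      (by nlinarith [mul_le_mul_of_nonneg_left d4 (by linarith : 0 ≤ K)])))).2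
    conv_lhs => rw [← Nat.div_add_mod' j q, pow_add, M.cc_mul, dotProduct_add]
    rw [hB₃]; linarith
  have a1 := h₄ f.φ (p * e) (List.replicate n x) (B₃ * q) f.lφ (fun y hy => by rw [List.eq_of_mem_replicate hy]; exact hΛ.ge)
    fun l' hl' => by
      obtain ⟨h1, h2⟩ := List.prefix_replicate_iff.1 hl'
      rw [h2, List.prod_replicate]
      exact c3 _ h1
  rw [List.prod_replicate, List.length_replicate] at a1
  obtain ⟨H, hH⟩ : ∃ z, z = β ⬝ᵥ M.chi (f.φ (p * e)) := ⟨_, rfl⟩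
  rw [← hH]
  have a2 : ‖A.bb (f.φ (p * e * x ^ n)) - A.bb (f.φ (p * x ^ n))‖ ≤ Real.exp H := by
    rw [tubec_bb A]
    have d1 := (f.lφ (p * x ^ n) (p * e * x ^ n))
    rw [show (p * x ^ n)⁻¹ * (p * e * x ^ n) = (x ^ n)⁻¹ * e * x ^ n by group] at d1
    have d2 : β ⬝ᵥ M.chi (f.φ (p * x ^ n)) = H - β ⬝ᵥ M.cc f.φ e p + β ⬝ᵥ M.cc f.φ (x ^ n) p := by
      simp only [hH, cc, dotProduct_sub]; ring
    refine (mul_le_mul_of_nonneg_left (h₅ _) (Real.exp_pos _).le).trans ?_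
    rw [← Real.exp_add, Real.exp_le_exp, d2]
    linarith [mul_le_mul_of_nonneg_left (d1.trans l1) (by linarith : 0 ≤ B₅), mul_assoc b D u,
      mul_le_mul_of_nonneg_left hu1 (by linarith : 0 ≤ B₅)]
  have a3 : B₄ * n * Real.exp (B₃ * q) + 1 ≤ Real.exp (B * (q + lg)) := by
    have d1 : 1 ≤ Real.exp (B₃ * q) := Real.one_le_exp (by positivity)
    have d2 := Real.add_one_le_exp B₄
    calc _ ≤ (B₄ + 1) * (1 + n) * Real.exp (B₃ * q) := by nlinarith [mul_nonneg hn0 (by linarith : 0 ≤ Real.exp (B₃ * q))]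
      _ ≤ Real.exp B₄ * Real.exp lg * Real.exp (B₃ * q) := by rw [hlg, Real.exp_log (by linarith)]; gcongr
      _ ≤ _ := by
        rw [← Real.exp_add, ← Real.exp_add, Real.exp_le_exp, hB]
        nlinarith [mul_nonneg hbD (by linarith : 0 ≤ q + lg), mul_nonneg hB₅D (by linarith : 0 ≤ q + lg), mul_nonneg hB₃0 hlg0,
          mul_nonneg (by linarith : 0 ≤ B₄) hlg0]
  calc _ ≤ ‖A.bb (f.φ (p * e * x ^ n)) - A.bb (f.φ (p * e))‖ + ‖A.bb (f.φ (p * e * x ^ n)) - A.bb (f.φ (p * x ^ n))‖ := by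
        rw [norm_sub_rev (A.bb (f.φ (p * e * x ^ n))) (A.bb (f.φ (p * e)))]
        exact norm_sub_le_norm_sub_add_norm_sub _ _ _
    _ ≤ Real.exp H * (B₄ * n * Real.exp (B₃ * q)) + Real.exp H := by
        rw [tubec_bb A (f.φ (p * e)), ← hH]
        gcongr
    _ ≤ _ := by rw [Real.exp_add, ← mul_add_one]; gcongr

omit M in
theorem hd_log {ε : ℝ} (hε : 0 < ε) : ∀ᶠ x : ℝ in atTop, Real.log (1 + x) ≤ ε * x := by
  have h := (Real.isLittleO_log_id_atTop.comp_tendsto (tendsto_atTop_add_const_left _ 1 tendsto_id)).bound (half_pos hε)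
  filter_upwards [h, eventually_ge_atTop 1] with x h1 h2
  simp only [Function.comp, id, Real.norm_eq_abs] at h1
  rw [abs_of_pos (show 0 < 1 + x by linarith)] at h1
  nlinarith [le_abs_self (Real.log (1 + x))]

/-- Choose `A β` for `β ∈ R1` (`exists_Aff`, `finite_R1`) and common constants `B, c` for `spt`, `tube_det`.  With `B₀` from `exists_norm_le_R1` (applied to `-a`) some `β` has
`β ⬝ᵥ a < -σ n / (2 B₀)`, `a = cc (x ^ n) p`, `n = N q`.  Take `ρ = θ n`, `θ = σ / (4 B B₀)`, `N ≥ 4 B ^ 2 / (c θ)` and `q` so large that `1 ≤ θ n`, `log (1 + n) ≤ θ n`,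
`B ^ 2 log (1 + n) ≤ c θ n / 4`, `B exp (- c θ n / 2) ≤ 1 / 2`.  `univ ⊆ bad ∪ tube ∪ (exp '' (E ∩ Gv ρ))ᶜ` (`isProbabilityMeasure_lw_Gv` with `t = 1`, `lw_compl`). -/
theorem tube_half (K : ℝ) (X : V h) {σ : ℝ} (hσ : 0 < σ) : ∃ N : ℕ, 1 ≤ N ∧ ∀ q₀ : ℕ, ∃ q ≥ q₀, 1 ≤ q ∧ ∃ ρ : ℝ, 1 ≤ ρ ∧ ∀ (f : M.QP K) (p : M.G),
    σ * (N * q) ≤ ‖M.cc f.φ (M.exp X ^ (N * q)) p‖ → 2⁻¹ ≤ M.lw M.E (M.Gv ρ) {e | p * e ∈ M.Bad f.φ (M.exp X) N q} := by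
  haveI := M.finite_R1.to_subtype
  have A : ∀ β : M.R1, M.Aff β := fun β => (M.exists_Aff β.2).some
  choose B₁ c₁ hB₁ hc₁ h₁ using fun β : M.R1 => M.spt K (A β)
  choose B₂ hB₂ h₂ using fun β : M.R1 => M.tube_det K (A β) X
  obtain ⟨B₀, hB₀, h₀⟩ := M.exists_norm_le_R1
  obtain ⟨B', hB'⟩ := Finite.exists_le fun β : M.R1 => B₁ β + B₂ β + (c₁ β)⁻¹
  obtain ⟨B, hB, hBB⟩ : ∃ B : ℝ, 1 ≤ B ∧ B' ≤ B := ⟨max 1 B', le_max_left _ _, le_max_right _ _⟩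
  have hB0 : 0 < B := by linarith
  obtain ⟨θ, hθ, hθ'⟩ : ∃ θ : ℝ, 0 < θ ∧ 2 * B * θ = σ / (2 * B₀) := ⟨σ / (4 * B * B₀), by positivity, by field_simp; ring⟩
  obtain ⟨N, hN⟩ := exists_nat_ge (4 * B ^ 3 / θ + 1)
  have hN' : 0 ≤ 4 * B ^ 3 / θ := by positivity
  have hN1 : 1 ≤ N := by exact_mod_cast (by linarith : (1 : ℝ) ≤ N)
  refine ⟨N, hN1, fun q₀ => ?_⟩
  have ht : Tendsto (fun q : ℕ => (N : ℝ) * q) atTop atTop :=
    tendsto_natCast_atTop_atTop.const_mul_atTop (by linarith)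
  obtain ⟨q, ⟨⟨hq0, hq1⟩, ⟨e1, e2⟩, e3, e4⟩⟩ := (((eventually_ge_atTop q₀).and (eventually_ge_atTop 1)).and
    (((ht.eventually (eventually_ge_atTop θ⁻¹)).and (ht.eventually (hd_log hθ))).and
    ((ht.eventually (hd_log (show 0 < θ / (4 * B ^ 3) by positivity))).and
      (ht.eventually (eventually_ge_atTop (2 * B * Real.log (2 * B) / θ)))))).exists
  have hq1' : (1 : ℝ) ≤ q := by exact_mod_cast hq1
  have hn : (0 : ℝ) < N * q := by positivity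
  have hρ : 1 ≤ θ * (N * q) := by rwa [inv_le_iff_one_le_mul₀' hθ] at e1
  have hl : 0 ≤ Real.log (1 + N * q) := Real.log_nonneg (by linarith)
  refine ⟨q, hq0, hq1, θ * (N * q), hρ, fun f p hp => ?_⟩
  obtain ⟨β, hβ, hβa⟩ : ∃ β ∈ M.R1, σ / (2 * B₀) * (N * q) < β ⬝ᵥ -M.cc f.φ (M.exp X ^ (N * q)) p := by
    by_contra hcon
    push Not at hcon
    have := h₀ _ _ (by positivity) hcon
    rw [norm_neg, show B₀ * (σ / (2 * B₀) * (N * q)) = σ * (N * q) / 2 by field_simp] at this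
    nlinarith [mul_pos hσ hn]
  rw [dotProduct_neg, ← hθ'] at hβa
  have b0 := hB' ⟨β, hβ⟩
  have b1 := hB₁ ⟨β, hβ⟩
  have b2 := hB₂ ⟨β, hβ⟩
  have b3 := hc₁ ⟨β, hβ⟩
  have b4 := inv_pos.2 b3
  have b5 : 1 ≤ c₁ ⟨β, hβ⟩ * B := by
    rw [← inv_le_iff_one_le_mul₀' b3]; linarith
  have t1 := h₂ ⟨β, hβ⟩ f p N q (θ * (N * q)) hN1 hq1 hρ (by
    have : B₂ ⟨β, hβ⟩ * (θ * (N * q) + Real.log (1 + N * q)) ≤ B * (θ * (N * q) + θ * (N * q)) :=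
      mul_le_mul (by linarith) (by linarith) (by linarith) hB0.le
    simp only
    linarith)
  have t2 := h₁ ⟨β, hβ⟩ f p ((A ⟨β, hβ⟩).bb (f.φ (p * M.exp X ^ (N * q)))) (θ * (N * q))
    (B₂ ⟨β, hβ⟩ * (q + Real.log (1 + N * q))) hρ (by positivity)
  have t3 : B₁ ⟨β, hβ⟩ * Real.exp (B₁ ⟨β, hβ⟩ * (B₂ ⟨β, hβ⟩ * (q + Real.log (1 + N * q))) - c₁ ⟨β, hβ⟩ * (θ * (N * q))) ≤ 2⁻¹ := by
    have s1 : B₁ ⟨β, hβ⟩ * (B₂ ⟨β, hβ⟩ * (q + Real.log (1 + N * q))) ≤ B * (B * (q + Real.log (1 + N * q))) :=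
      mul_le_mul (by linarith) (mul_le_mul_of_nonneg_right (by linarith) (by linarith)) (by positivity) hB0.le
    have s2 : 4 * B ^ 3 * q ≤ θ * (N * q) := by
      have : 4 * B ^ 3 / θ ≤ N := by linarith
      rw [div_le_iff₀ hθ] at this
      nlinarith
    have s3 : 4 * B ^ 3 * Real.log (1 + N * q) ≤ θ * (N * q) := by
      have := mul_le_mul_of_nonneg_left e3 (show 0 ≤ 4 * B ^ 3 by positivity)
      rwa [show 4 * B ^ 3 * (θ / (4 * B ^ 3) * (N * q)) = θ * (N * q) by field_simp] at this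
    have s4 : 2 * B * Real.log (2 * B) ≤ θ * (N * q) := by
      rw [div_le_iff₀ hθ] at e4; linarith
    have s5 : θ * (N * q) ≤ B * (c₁ ⟨β, hβ⟩ * (θ * (N * q))) := by nlinarith
    have s6 : B * (B * (q + Real.log (1 + N * q))) - c₁ ⟨β, hβ⟩ * (θ * (N * q)) ≤ -Real.log (2 * B) := by
      refine le_of_mul_le_mul_left ?_ hB0
      nlinarith
    calc _ ≤ B * Real.exp (-Real.log (2 * B)) :=
          mul_le_mul (by linarith) (Real.exp_le_exp.2 (by linarith)) (Real.exp_pos _).le hB0.le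
      _ = 2⁻¹ := by rw [Real.exp_neg, Real.exp_log (by positivity)]; field_simp
  have hP := M.isProbabilityMeasure_lw_Gv (le_refl M.E) one_pos (θ * (N * q))
  rw [one_smul] at hP
  have t4 := M.lw_compl M.E (M.isCompact_Gv (θ * (N * q)))
  have t5 : (1 : ℝ≥0∞) ≤ M.lw M.E (M.Gv (θ * (N * q))) {e | p * e ∈ M.Bad f.φ (M.exp X) N q} + 2⁻¹ := by
    have t6 := t2.trans ((ENNReal.ofReal_le_ofReal t3).trans_eq
      (show ENNReal.ofReal 2⁻¹ = 2⁻¹ by rw [ENNReal.ofReal_inv_of_pos two_pos, ENNReal.ofReal_ofNat]))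
    refine le_trans ?_ ((measure_union_le _ _).trans (add_le_add le_rfl t6))
    rw [← measure_univ (μ := M.lw M.E (M.Gv (θ * (N * q))))]
    refine measure_mono_ae ?_
    filter_upwards [mem_ae_iff.2 t4] with e he _
    obtain ⟨Y, hY, rfl⟩ := he
    by_cases hb : p * M.exp Y ∈ M.Bad f.φ (M.exp X) N q
    · exact Or.inl hb
    · exact Or.inr (t1 Y hY.2 hb)
  rw [← ENNReal.inv_two_add_inv_two] at t5
  exact (ENNReal.add_le_add_iff_right (by simp)).1 t5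

/-- `markov_fubini` with `b = 3⁻¹`, `Inv_apply`, `len_Box 1`, `lw_compl` -/
theorem tube_meas (K : ℝ) (X : V h) {σ : ℝ} (hσ : 0 < σ) : ∃ N : ℕ, 1 ≤ N ∧ ∀ q₀ : ℕ, ∃ q ≥ q₀, 1 ≤ q ∧ ∃ r : ℝ, ∀ (f : M.QP K) (μ : Measure M.G) (η : ℝ),
    IsProbabilityMeasure μ → Inv μ (M.ballR r) η →
      μ {p | σ * (N * q) ≤ ‖M.cc f.φ (M.exp X ^ (N * q)) p‖} ≤ 3 * (μ (M.Bad f.φ (M.exp X) N q) + ENNReal.ofReal η) := by
  obtain ⟨N, hN, h1⟩ := M.tube_half K X hσ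
  obtain ⟨Λ, hΛ, h2⟩ := M.len_Box 1
  refine ⟨N, hN, fun q₀ => ?_⟩
  obtain ⟨q, hq, hq1, ρ, hρ, h3⟩ := h1 q₀
  refine ⟨q, hq, hq1, Λ * ρ, fun f μ η hμ hi => ?_⟩
  have h4 := M.isProbabilityMeasure_lw_Gv le_rfl one_pos ρ
  have h5 := (h2 ρ hρ).2
  rw [one_smul] at h4 h5
  have h6 := M.markov_fubini (ν := μ) (la := M.lw M.E (M.Gv ρ)) (A := {z | z.1 * z.2 ∈ M.Bad f.φ (M.exp X) N q})
    ((measurable_fst.mul measurable_snd) (M.measurableSet_Bad f.mφ _ N q)) (b := 3⁻¹) (by simp)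
    (a := μ (M.Bad f.φ (M.exp X) N q) + ENNReal.ofReal η) (by
      filter_upwards [mem_ae_iff.2 (M.lw_compl M.E (M.isCompact_Gv ρ))] with x hx
      exact M.Inv_apply hi (h5 (image_mono inter_subset_right hx)) _)
  rw [div_eq_mul_inv, inv_inv, mul_comm] at h6
  exact (measure_mono fun p hp => lt_of_lt_of_le (ENNReal.inv_lt_inv.2 (by norm_num)) (h3 f p hp)).trans h6

theorem he_len (x : M.G) (n : ℕ) : M.len (x ^ n) ≤ n * M.len x := by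
  induction n with
  | zero => simp [M.len_one]
  | succ n ih => rw [pow_succ, add_mul, one_mul]; exact (M.len_mul _ _).trans (add_le_add_left ih _)

theorem he_bad {C₀ : ℝ} (hC : 0 ≤ C₀) {𝒰 : Ultrafilter ℕ} {φ : ℕ → M.G → M.G} {μ : ℕ → Measure M.G} {𝓗 : Type*}
    [NormedAddCommGroup 𝓗] [InnerProductSpace ℝ 𝓗] {π : M.G →* (𝓗 ≃ₗᵢ[ℝ] 𝓗)} {c : M.G → 𝓗} (hl : M.Lim 𝒰 φ μ C₀ c)
    {x : M.G} {s : 𝓗} (hs : Spd π c x s) {N : ℕ} (hN : 1 ≤ N) {τ : ℝ} (hτ : 0 < τ) : ∃ q₁ : ℝ, ∀ q : ℕ, q₁ ≤ q → 1 ≤ q →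
      ∀ᶠ m in (𝒰 : Filter ℕ), μ m (M.Bad (φ m) x N q) ≤ ENNReal.ofReal τ := by
  have hN' : (0 : ℝ) < N := by exact_mod_cast hN
  obtain ⟨ω, hω, hω2⟩ : ∃ ω : ℝ, 0 < ω ∧ ω ^ 2 = τ / (2 * (N + 1)) :=
    ⟨√(τ / (2 * (N + 1))), Real.sqrt_pos.2 (by positivity), Real.sq_sqrt (by positivity)⟩
  obtain ⟨B, hB⟩ := hs.2 (ω / (8 * N)) (by positivity)
  refine ⟨max (4 * C₀) (8 * B / ω), fun q hq hq1 => ?_⟩
  have hq0 : (0 : ℝ) < q := by exact_mod_cast hq1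
  have hq2 : 4 * C₀ ≤ q := (le_max_left _ _).trans hq
  have hq3 : 8 * B ≤ q * ω := (div_le_iff₀ hω).1 ((le_max_right _ _).trans hq)
  have key : ∀ i ∈ Finset.range (N + 1), ∀ᶠ m in (𝒰 : Filter ℕ),
      μ m {p | (q : ℝ) < ‖M.cc (φ m) (x ^ (i * q)) p - ((i : ℝ) / N) • M.cc (φ m) (x ^ (N * q)) p‖} ≤
        ENNReal.ofReal (τ / (N + 1)) := fun i hi => by
    have hi' : (i : ℝ) ≤ N := by exact_mod_cast Nat.lt_succ_iff.1 (Finset.mem_range.1 hi)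
    have ha0 : 0 ≤ (i : ℝ) / N := by positivity
    have ha1 : (i : ℝ) / N ≤ 1 := (div_le_one hN').2 hi'
    have hb : ∀ j : ℕ, (j : ℝ) ≤ N → ‖c (x ^ (j * q)) - ((j : ℝ) * q) • s‖ ≤ q * ω / 4 := fun j hj => by
      have h1 := hB ((j * q : ℕ) : ℤ)
      rw [zpow_natCast, Int.cast_natCast, Nat.abs_cast, Nat.cast_mul] at h1
      have h2 : ω / (8 * N) * ((j : ℝ) * q) ≤ ω / (8 * N) * (N * q) := by gcongr
      have h3 : ω / (8 * N) * (N * q) = q * ω / 8 := by field_simp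
      linarith
    have hn : ‖c (x ^ (i * q)) - ((i : ℝ) / N) • c (x ^ (N * q))‖ ≤ q * ω / 2 := by
      have e : c (x ^ (i * q)) - ((i : ℝ) / N) • c (x ^ (N * q)) = (c (x ^ (i * q)) - ((i : ℝ) * q) • s) -
          ((i : ℝ) / N) • (c (x ^ (N * q)) - ((N : ℝ) * q) • s) := by
        rw [smul_sub, smul_smul, show (i : ℝ) / N * (N * q) = i * q by field_simp]
        abel
      rw [e]
      refine (norm_sub_le _ _).trans ?_
      rw [norm_smul, Real.norm_of_nonneg ha0]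
      have h1 := hb i hi'
      have h2 := hb N le_rfl
      have h3 := mul_le_of_le_one_left (norm_nonneg (c (x ^ (N * q)) - ((N : ℝ) * q) • s)) ha1
      linarith
    filter_upwards [hl.up (Fin 2) ![1, -((i : ℝ) / N)] ![x ^ (i * q), x ^ (N * q)] (q / 2) (ω ^ 2) (by positivity)
      (by positivity)] with m hm
    simp only [Fin.sum_univ_two, Matrix.cons_val_zero, Matrix.cons_val_one, one_smul, neg_smul, ← sub_eq_add_neg, abs_one,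
      abs_neg, abs_of_nonneg ha0] at hm
    refine (measure_mono fun p hp => ?_).trans (hm.trans (ENNReal.ofReal_le_ofReal ?_))
    · rw [mem_ofPred_eq] at hp ⊢
      refine lt_of_le_of_lt ?_ hp
      nlinarith
    · have h1 : ‖c (x ^ (i * q)) - ((i : ℝ) / N) • c (x ^ (N * q))‖ ^ 2 / (q / 2) ^ 2 ≤ ω ^ 2 := by
        rw [div_le_iff₀ (by positivity)]
        calc _ ≤ (q * ω / 2) ^ 2 := by gcongr
          _ = _ := by ring
      have h2 : τ / (N + 1) = 2 * ω ^ 2 := by rw [hω2]; field_simp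
      linarith
  filter_upwards [(Finset.eventually_all _).2 key] with m hm
  have e : M.Bad (φ m) x N q ⊆ ⋃ i ∈ Finset.range (N + 1),
      {p | (q : ℝ) < ‖M.cc (φ m) (x ^ (i * q)) p - ((i : ℝ) / N) • M.cc (φ m) (x ^ (N * q)) p‖} := by
    rintro p ⟨i, hi, hp⟩
    exact mem_iUnion₂.2 ⟨i, Finset.mem_range.2 (Nat.lt_succ_iff.2 hi), hp⟩
  refine (measure_mono e).trans ((measure_biUnion_finset_le _ _).trans ((Finset.sum_le_sum hm).trans (le_of_eq ?_)))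
  rw [Finset.sum_const, Finset.card_range, nsmul_eq_mul, ← ENNReal.ofReal_natCast, ← ENNReal.ofReal_mul (by positivity)]
  congr 1
  push_cast
  field_simp

/-- Let `s` be the speed (`Coc.exists_spd`); `Spd.eq_zero`.  Given `σ` take `N` from `tube_meas`, `τ` small, `ε'` with `‖c (x ^ (i q)) - (i / N) • c (x ^ (N q))‖ ≤ 2 (ε' N q + B)`, `q` large;
`Lim.up` (index type `Fin 2` or `Bool`, `t = q / 2`, `2 C₀ ≤ q / 2`) for the `N + 1` values of `i` gives `μ m (Bad) ≤ τ` for `𝒰`-most `m`; `Lim.low` with `t = σ N q`,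
`B = (K len x + K) N q` gives `‖c (x ^ (N q))‖ ^ 2 ≤ k ((σ N q + C₀) ^ 2 + (B + C₀) ^ 2 * 6 τ)`. -/
theorem spd_zero {K C₀ : ℝ} (hC : 0 ≤ C₀) {𝒰 : Ultrafilter ℕ} {f : ℕ → M.QP K} {μ : ℕ → Measure M.G} (hμ : ∀ m, IsProbabilityMeasure (μ m))
    (hi : ∀ r η : ℝ, 0 < η → ∀ᶠ m in (𝒰 : Filter ℕ), Inv (μ m) (M.ballR r) η) {𝓗 : Type*} [NormedAddCommGroup 𝓗] [InnerProductSpace ℝ 𝓗]
    [CompleteSpace 𝓗] {π : M.G →* (𝓗 ≃ₗᵢ[ℝ] 𝓗)} {c : M.G → 𝓗} (hc : Coc π ⊤ c) (hl : M.Lim 𝒰 (fun m => (f m).φ) μ C₀ c) (X : V h) :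
    Spd π c (M.exp X) 0 := by
  obtain ⟨s, hs⟩ := hc.exists_spd (Subgroup.mem_top (M.exp X))
  suffices h0 : s = 0 by rwa [h0] at hs
  refine hs.eq_zero fun σ' hσ' n₀ => ?_
  have hK : 1 ≤ K := (f 0).one_le
  set D : ℝ := K * M.len (M.exp X) + K with hD
  have hD0 : 0 < D := by positivity
  obtain ⟨σ, hσ, hσ2⟩ : ∃ σ : ℝ, 0 < σ ∧ k * (2 * σ) ^ 2 ≤ σ' ^ 2 / 2 := by
    refine ⟨σ' / (4 * (k + 1)), by positivity, ?_⟩
    have e : k * (2 * (σ' / (4 * (k + 1)))) ^ 2 = σ' ^ 2 / 2 * (k / (2 * (k + 1) ^ 2)) := by field_simp; ring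
    rw [e]
    refine mul_le_of_le_one_right (by positivity) ((div_le_one (by positivity)).2 ?_)
    nlinarith [Nat.cast_nonneg (α := ℝ) k]
  obtain ⟨τ, hτ, hτ2⟩ : ∃ τ : ℝ, 0 < τ ∧ k * ((D + σ) ^ 2 * (3 * (τ + τ))) ≤ σ' ^ 2 / 2 := by
    refine ⟨σ' ^ 2 / (12 * (k + 1) * (D + σ) ^ 2), by positivity, ?_⟩
    have e : k * ((D + σ) ^ 2 * (3 * (σ' ^ 2 / (12 * (k + 1) * (D + σ) ^ 2) + σ' ^ 2 / (12 * (k + 1) * (D + σ) ^ 2)))) =
        σ' ^ 2 / 2 * (k / (k + 1)) := by field_simp; ring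
    rw [e]
    exact mul_le_of_le_one_right (by positivity) ((div_le_one (by positivity)).2 (by linarith))
  obtain ⟨N, hN, H⟩ := M.tube_meas K X hσ
  obtain ⟨q₁, hq₁⟩ := M.he_bad hC hl hs hN hτ
  obtain ⟨q₀, hq₀⟩ := exists_nat_ge (max q₁ (max (n₀ : ℝ) (C₀ / σ)))
  obtain ⟨q, hq, hq1, r, Hr⟩ := H q₀
  have hq' : max q₁ (max (n₀ : ℝ) (C₀ / σ)) ≤ q := hq₀.trans (by exact_mod_cast hq)
  simp only [max_le_iff] at hq'
  obtain ⟨h1, h2, h3⟩ := hq'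
  have hn : q ≤ N * q := Nat.le_mul_of_pos_left _ hN
  have hn' : (q : ℝ) ≤ N * q := by exact_mod_cast hn
  have hq1' : (1 : ℝ) ≤ q := by exact_mod_cast hq1
  refine ⟨N * q, le_trans (by exact_mod_cast h2) hn, ?_⟩
  have h4 : C₀ ≤ σ * (N * q) := by
    rw [div_le_iff₀ hσ] at h3
    nlinarith
  have h5 := hl.low (M.exp X ^ (N * q)) (σ * (N * q)) (3 * (τ + τ)) (D * (N * q)) (by positivity) (by positivity)
    (fun m p => ((f m).lφ.norm_cc _ p).trans (by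
      have h6 : (M.len (M.exp X ^ (N * q)) : ℝ) ≤ N * q * M.len (M.exp X) := by exact_mod_cast M.he_len _ _
      have h7 : K * (M.len (M.exp X ^ (N * q)) : ℝ) ≤ K * (N * q * M.len (M.exp X)) := by gcongr
      have h8 : K * 1 ≤ K * (N * q) := by gcongr; linarith
      rw [hD]
      linarith)) (by
      filter_upwards [hq₁ q h1 hq1, hi r τ hτ] with m hm hm'
      refine (Hr (f m) (μ m) τ (hμ m) hm').trans ?_
      rw [ENNReal.ofReal_mul (by norm_num), ENNReal.ofReal_add hτ.le hτ.le, ENNReal.ofReal_ofNat]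
      gcongr)
  push_cast
  refine (pow_le_pow_iff_left₀ (norm_nonneg _) (by positivity) two_ne_zero).1 (h5.trans ?_)
  set n : ℝ := N * q
  calc _ ≤ k * ((2 * σ * n) ^ 2 + ((D + σ) * n) ^ 2 * (3 * (τ + τ))) := by
        gcongr <;> linarith
    _ = (k * (2 * σ) ^ 2 + k * ((D + σ) ^ 2 * (3 * (τ + τ)))) * n ^ 2 := by ring
    _ ≤ (σ' ^ 2 / 2 + σ' ^ 2 / 2) * n ^ 2 := by gcongr
    _ = _ := by ring

end Model

end Crest.Agent.R182
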