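import Crest.Agent.R182.H.Abs
import Crest.Agent.R182.H.Tube

/-! R182/H/Loc (owner helper36): coarse differentiation. -/

set_option autoImplicit false
set_option linter.unusedVariables false
set_option linter.unusedSectionVars false
open Set Filter Topology MeasureTheory Matrix Crest.GroupTheory
open scoped Pointwise commutatorElement ENNReal InnerProductSpace

noncomputable section
namespace Crest.Agent.R182

namespace Model
variable {h k : ℕ} (M : Model h k)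

/-- `exists_net` for `A = ballR R` -/
theorem exists_net_ballR (R : ℝ) : ∃ S : Finset M.G, (S : Set M.G) ⊆ M.ballR R ∧ ∀ g ∈ M.ballR R, ∃ y ∈ S, ∃ z ∈ M.ball 2, g = y * z := by
  obtain ⟨S, h1, h2, -⟩ := M.exists_net (M.ballR R) ((M.isCompact_ballR R).mul (M.isCompact_ball' 1)).measure_lt_top.ne
  refine ⟨S, h1, fun g hg => ?_⟩
  obtain ⟨y, hy, z, hz, e⟩ := h2 hg
  exact ⟨y, hy, z, hz, e.symm⟩

/-- `cc_mul`, `Lip.norm_cc`, `Lip.mb_Ln`, `Mb.norm_mulVec`, `chi_mul`, `norm_chi_le` -/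
theorem loc_near {K : ℝ} (f : M.QP K) (n : ℕ) (y p : M.G) {z : M.G} (hz : z ∈ M.ball 2) :
    ‖M.cc f.φ (y * z) p - M.Ln f.φ n p *ᵥ M.chi (y * z)‖ ≤ ‖M.cc f.φ y p - M.Ln f.φ n p *ᵥ M.chi y‖ + (3 * K + 4 * k * K) := by
  have hK : 0 ≤ K := zero_le_one.trans f.one_le
  have hz' : (M.len z : ℝ) ≤ 2 := by exact_mod_cast M.mem_ball.1 hz
  have h1 := f.lφ.norm_cc z (p * y)
  have h2 := (f.lφ.mb_Ln hK n p).norm_mulVec (M.chi z)
  have h3 := (M.norm_chi_le z).trans hz'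
  have e : M.cc f.φ (y * z) p - M.Ln f.φ n p *ᵥ M.chi (y * z) =
      (M.cc f.φ y p - M.Ln f.φ n p *ᵥ M.chi y) + (M.cc f.φ z (p * y) - M.Ln f.φ n p *ᵥ M.chi z) := by
    rw [M.cc_mul, M.chi_mul, mulVec_add]
    abel
  rw [e]
  refine (norm_add_le _ _).trans (add_le_add_right ((norm_sub_le _ _).trans (add_le_add ?_ ?_)) _)
  · nlinarith
  · have h4 : (0 : ℝ) ≤ k * (2 * K) := by positivity
    nlinarith

/-- the deviation as a linear combination indexed by `Option (Fin k)` -/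
theorem loc_sum (φ : M.G → M.G) (n : ℕ) (y p : M.G) : M.cc φ y p - M.Ln φ n p *ᵥ M.chi y =
    ∑ l : Option (Fin k), (l.elim 1 fun j => -(M.chi y j / n)) • M.cc φ (l.elim y fun j => M.gen j ^ n) p := by
  rw [Fintype.sum_option]
  funext i
  simp only [Option.elim_none, Option.elim_some, one_smul, Pi.sub_apply, Pi.add_apply, Finset.sum_apply, Pi.smul_apply,
    smul_eq_mul, mulVec, dotProduct, Ln, Matrix.of_apply, sub_eq_add_neg, ← Finset.sum_neg_distrib]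
  congr 1
  exact Finset.sum_congr rfl fun j _ => by ring

/-- `‖c y - ∑ j, (chi y j / n) • c (gen j ^ n)‖ ≤ ε' Λ₀ n + B + k Λ₀ (ε' n + B)` (`chi_pow`, `chi_gen`, `len (gen j ^ n) ≤ n`) -/
theorem loc_norm {𝓗 : Type*} [NormedAddCommGroup 𝓗] [InnerProductSpace ℝ 𝓗] {c : M.G → 𝓗} {s : Fin k → 𝓗}
    (hs : ∀ ε : ℝ, 0 < ε → ∃ B : ℝ, ∀ g, ‖c g - ∑ i, M.chi g i • s i‖ ≤ ε * M.len g + B) (Λ₀ : ℝ) {ε : ℝ} (hε : 0 < ε) :
    ∀ᶠ n : ℕ in atTop, ∀ y ∈ M.ballR (Λ₀ * n),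
      ‖∑ l : Option (Fin k), (l.elim 1 fun j => -(M.chi y j / n)) • c (l.elim y fun j => M.gen j ^ n)‖ ≤ ε * n := by
  set Λ := |Λ₀| with hΛ
  have hΛ0 : 0 ≤ Λ := abs_nonneg _
  have hD : (0 : ℝ) < 2 * ((1 + k) * Λ + 1) := by positivity
  obtain ⟨B, hB⟩ := hs (ε / (2 * ((1 + k) * Λ + 1))) (by positivity)
  set ε' := ε / (2 * ((1 + k) * Λ + 1)) with hε'
  have hε'0 : 0 < ε' := by positivity
  have hε2 : ε' * ((1 + k) * Λ) ≤ ε / 2 := by
    have : ε' * (2 * ((1 + k) * Λ + 1)) = ε := div_mul_cancel₀ _ hD.ne'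
    nlinarith
  have hev : ∀ᶠ n : ℕ in atTop, (1 + k * Λ) * |B| / (ε / 2) ≤ n :=
    tendsto_natCast_atTop_atTop.eventually (eventually_ge_atTop _)
  filter_upwards [hev, eventually_ge_atTop 1] with n h1 hn y hy
  have hn0 : (0 : ℝ) < n := by exact_mod_cast hn
  rw [div_le_iff₀ (half_pos hε)] at h1
  have hy' : (M.len y : ℝ) ≤ Λ * n := le_trans hy (mul_le_mul_of_nonneg_right (le_abs_self _) hn0.le)
  have hg : ∀ j, ‖c (M.gen j ^ n) - (n : ℝ) • s j‖ ≤ ε' * n + |B| := fun j => by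
    have h2 := hB (M.gen j ^ n)
    have h3 : ∑ i, M.chi (M.gen j ^ n) i • s i = (n : ℝ) • s j := by
      rw [M.chi_pow, M.chi_gen, Finset.sum_eq_single j (fun i _ hi => by simp [hi]) (by simp)]
      simp
    have h4 : (M.len (M.gen j ^ n) : ℝ) ≤ n := by
      have := M.apilena_zpow (M.apilena_gen j) n
      rw [zpow_natCast, Int.natAbs_natCast] at this
      exact_mod_cast this
    rw [h3] at h2
    have h5 := mul_le_mul_of_nonneg_left h4 hε'0.le
    linarith [le_abs_self B]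
  have e : ∑ l : Option (Fin k), (l.elim 1 fun j => -(M.chi y j / n)) • c (l.elim y fun j => M.gen j ^ n) =
      (c y - ∑ i, M.chi y i • s i) - ∑ j, (M.chi y j / n) • (c (M.gen j ^ n) - (n : ℝ) • s j) := by
    rw [Fintype.sum_option]
    simp only [Option.elim_none, Option.elim_some, one_smul, smul_sub, smul_smul, div_mul_cancel₀ _ hn0.ne',
      Finset.sum_sub_distrib, neg_smul, Finset.sum_neg_distrib]
    abel
  have h6 : ‖∑ j, (M.chi y j / n) • (c (M.gen j ^ n) - (n : ℝ) • s j)‖ ≤ k * (Λ * (ε' * n + |B|)) := by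
    refine (norm_sum_le _ _).trans ((Finset.sum_le_card_nsmul _ _ (Λ * (ε' * n + |B|)) fun j _ => ?_).trans_eq (by simp))
    rw [norm_smul]
    refine mul_le_mul ?_ (hg j) (norm_nonneg _) hΛ0
    rw [norm_div, Real.norm_natCast, div_le_iff₀ hn0]
    exact ((norm_le_pi_norm (M.chi y) j).trans (M.norm_chi_le y)).trans hy'
  rw [e]
  refine (norm_sub_le _ _).trans ?_
  have h7 := hB y
  have h8 := mul_le_mul_of_nonneg_left hy' hε'0.le
  have h9 := mul_le_mul_of_nonneg_right hε2 hn0.le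
  nlinarith [le_abs_self B]

theorem loc' (K Λ₀ ε δ : ℝ) (hε : 0 < ε) (hδ : 0 < δ) (n₁ : ℕ) : ∃ (n₂ : ℕ) (r η : ℝ), 0 < η ∧ ∀ (f : M.QP K) (μ : Measure M.G),
    IsProbabilityMeasure μ → Inv μ (M.ballR r) η → ∃ n : ℕ, n₁ ≤ n ∧ n ≤ n₂ ∧ ∀ g ∈ M.ballR (Λ₀ * n),
      μ {p | ε * n < ‖M.cc f.φ g p - M.Ln f.φ n p *ᵥ M.chi g‖} ≤ ENNReal.ofReal δ := by
  by_contra hcon
  push Not at hcon
  choose f μ hμ hI hbad using fun m : ℕ => hcon m m (1 / ((m : ℝ) + 1)) Nat.one_div_pos_of_nat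
  have hi : ∀ r η : ℝ, 0 < η → ∀ᶠ m in (hyperfilter ℕ : Filter ℕ), Inv (μ m) (M.ballR r) η := fun r η hη => by
    refine Nat.hyperfilter_le_atTop ?_
    filter_upwards [tendsto_natCast_atTop_atTop.eventually_ge_atTop r,
      tendsto_one_div_add_atTop_nhds_zero_nat.eventually (ge_mem_nhds hη)] with m h1 h2
    exact (hI m).mono (M.ballR_mono h1) h2
  obtain ⟨C₀, hC₀, hlim⟩ := M.exists_lim K
  obtain ⟨𝓗, _, _, _, π, c, hc, hcont, hπ, hl⟩ := hlim (hyperfilter ℕ) f μ hμ hi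
  obtain ⟨s, hs⟩ := M.abs_coc hc hcont hπ fun X _ => M.spd_zero hC₀ hμ hi hc hl X
  have hε' : 0 < ε * √δ / 8 := by positivity
  have ev : ∀ a : ℝ, ∀ᶠ n : ℕ in atTop, a ≤ ε * n / 4 := fun a =>
    ((tendsto_natCast_atTop_atTop.const_mul_atTop hε).atTop_div_const (by norm_num)).eventually_ge_atTop a
  obtain ⟨n, ⟨hn1, hn2⟩, hn3, hn4, hn5⟩ := (((eventually_ge_atTop n₁).and (eventually_ge_atTop 1)).and
    ((M.loc_norm hs Λ₀ hε').and ((ev (3 * K + 4 * k * K)).and (ev (C₀ * (1 + k * |Λ₀|)))))).exists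
  have hn0 : (0 : ℝ) < n := Nat.cast_pos.2 hn2
  obtain ⟨S, hS, hnet⟩ := M.exists_net_ballR (Λ₀ * n)
  have key := (eventually_all_finset S).2 fun y hy => hl.up (Option (Fin k)) (fun l => l.elim 1 fun j => -(M.chi y j / n))
    (fun l => l.elim y fun j => M.gen j ^ n) (ε * n / 4) (δ / 2) (by positivity) (by positivity)
  obtain ⟨m, hm1, hm2⟩ := (key.and (Nat.hyperfilter_le_atTop (eventually_ge_atTop n))).exists
  obtain ⟨g, hg, hlt⟩ := hbad m n hn1 hm2
  obtain ⟨y, hy, z, hz, rfl⟩ := hnet g hg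
  refine hlt.not_ge (le_trans (measure_mono fun p hp => ?_) ((hm1 y hy).trans (ENNReal.ofReal_le_ofReal ?_)))
  · have h1 := M.loc_near (f m) n y p hz
    have h2 : ∑ l : Option (Fin k), |(l.elim 1 fun j => -(M.chi y j / n) : ℝ)| ≤ 1 + k * |Λ₀| := by
      rw [Fintype.sum_option]
      simp only [Option.elim, abs_one, abs_neg, add_le_add_iff_left]
      refine (Finset.sum_le_card_nsmul _ _ |Λ₀| fun j _ => ?_).trans (by simp)
      rw [abs_div, abs_of_pos hn0, div_le_iff₀ hn0]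
      exact ((norm_le_pi_norm (M.chi y) j).trans (M.norm_chi_le y)).trans
        ((hS hy).trans (mul_le_mul_of_nonneg_right (le_abs_self _) hn0.le))
    have h3 := mul_le_mul_of_nonneg_left h2 hC₀
    rw [mem_ofPred_eq] at hp ⊢
    rw [← M.loc_sum]
    have : 0 < ε * n := by positivity
    linarith
  · have h1 := pow_le_pow_left₀ (norm_nonneg _) (hn3 y (hS hy)) 2
    have h2 : (ε * √δ / 8 * n) ^ 2 = δ / 4 * (ε * n / 4) ^ 2 := by
      rw [show ε * √δ / 8 * n = √δ * (ε * n / 8) by ring, mul_pow, Real.sq_sqrt hδ.le]; ring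
    have := (div_le_iff₀ (by positivity)).2 (h1.trans_eq h2)
    linarith

end Model

end Crest.Agent.R182
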