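import Crest.Agent.R182.H.Step
import Crest.Agent.R182.B.PM

/-! R182/H/Abs (owner helper36): cocycles with vanishing speeds along `exp (W 0)` are asymptotically linear in the height. -/

set_option autoImplicit false
set_option linter.unusedVariables false
set_option linter.unusedSectionVars false
open Set Filter Topology MeasureTheory Matrix Crest.GroupTheory
open scoped Pointwise commutatorElement ENNReal InnerProductSpace

noncomputable section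
namespace Crest.Agent.R182

namespace Model
variable {h k : ℕ} (M : Model h k) {𝓗 : Type*} [NormedAddCommGroup 𝓗] [InnerProductSpace ℝ 𝓗] [CompleteSpace 𝓗]
  {π : M.G →* (𝓗 ≃ₗᵢ[ℝ] 𝓗)} {c : M.G → 𝓗}

/-- sublinear on `exp (W 0)` -/
def SubN (c : M.G → 𝓗) : Prop := ∀ ε : ℝ, 0 < ε → ∃ B : ℝ, ∀ n : ℕ, ∀ g ∈ M.ballC n, M.tv g = 0 → ‖c g‖ ≤ ε * n + B

/-- `Spd.fix`: `(d ^ m)⁻¹ * y * d ^ m = y * (y⁻¹ * (d ^ m)⁻¹ * y * d ^ m)`, the second factor lies in `ballC (2 n₁ + 2 m n₂)` (`exists_mem_ballC`) and has `tv = 0` -/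
theorem spd_fix_C (hc : Coc π ⊤ c) (hN : M.SubN c) {d : M.G} (hd : d ∈ M.C) {s : 𝓗} (hs : Spd π c d s) {y : M.G} (hy : y ∈ M.C) :
    π y s = s := by
  obtain ⟨n₁, h1⟩ := M.exists_mem_ballC hy
  obtain ⟨n₂, h2⟩ := M.exists_mem_ballC hd
  refine hs.fix hc (Subgroup.mem_top _) (Subgroup.mem_top _) fun ε hε => ?_
  have hn : (0 : ℝ) < 2 * n₂ + 1 := by positivity
  obtain ⟨B, hB⟩ := hN (ε / (2 * n₂ + 1)) (div_pos hε hn)
  refine ⟨‖c y‖ + (ε / (2 * n₂ + 1) * (2 * n₁) + B), fun m => ?_⟩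
  have h3 : d ^ m ∈ M.ballC (m * n₂) := by simpa using M.zpow_mem_ballC h2 m
  have h4 := hB _ _ (M.mul_mem_ballC (M.mul_mem_ballC (M.mul_mem_ballC (M.inv_mem_ballC h1) (M.inv_mem_ballC h3)) h1) h3)
    (by simp only [M.tv_mul, M.tv_inv]; abel)
  have h5 := hc.norm_mul (g := y) (g' := y⁻¹ * (d ^ m)⁻¹ * y * d ^ m) (Subgroup.mem_top _) (Subgroup.mem_top _)
  rw [show y * (y⁻¹ * (d ^ m)⁻¹ * y * d ^ m) = (d ^ m)⁻¹ * y * d ^ m by group] at h5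
  have h6 : ε / (2 * n₂ + 1) * (2 * n₂ * m) ≤ ε * m := by
    rw [div_mul_eq_mul_div, div_le_iff₀ hn]
    nlinarith [mul_nonneg hε.le (Nat.cast_nonneg (α := ℝ) m)]
  push_cast at h4
  nlinarith

omit M in
theorem ha_log {K : ℝ} (hK : 0 ≤ K) (n : ℕ) {ε : ℝ} (hε : 0 < ε) : ∃ B : ℝ, ∀ m : ℕ, K * Real.log (2 + m * n) ≤ ε * m + B := by
  have h1 : (0 : ℝ) < (K + 1) * (n + 1) := by positivity
  obtain ⟨δ, hδ, e⟩ : ∃ δ : ℝ, 0 < δ ∧ ε = δ * ((K + 1) * (n + 1)) := ⟨ε / ((K + 1) * (n + 1)), div_pos hε h1, by field_simp⟩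
  refine ⟨K * (2 * δ - Real.log δ), fun m => ?_⟩
  have h2 : (0 : ℝ) < 2 + m * n := by positivity
  have h3 := Real.log_le_sub_one_of_pos (mul_pos hδ h2)
  rw [Real.log_mul hδ.ne' h2.ne'] at h3
  have h4 : Real.log (2 + m * n) ≤ δ * (m * n) + (2 * δ - Real.log δ) := by linarith
  have h5 := mul_le_mul_of_nonneg_left h4 hK
  have h6 : 0 ≤ δ * m * (K + n + 1) := by positivity
  rw [e]
  nlinarith

theorem ha_fix (hc : Coc π ⊤ c) (hcont : Continuous c) {d : M.G} (hd : d ∈ M.C) {s : 𝓗} (hs : Spd π c d s) {α : Fin k → ℝ} (hα : α ≠ 0)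
    (h0 : 0 ≤ α ⬝ᵥ M.chi d) {Y : V h} (hY : Y ∈ M.W α) : π (M.exp Y) s = s := by
  obtain ⟨n, hn⟩ := M.exists_mem_ballC hd
  obtain ⟨B₀, hB₀, h₀⟩ := M.exists_norm_coc hc hcont
  obtain ⟨B₁, hB₁, h₁⟩ := M.logS_W hα
  obtain ⟨B₂, D, hB₂, h₂⟩ := M.norm_Ad_C
  obtain ⟨B₃, hB₃, h₃⟩ := apiloga_log (B₂ * ‖Y‖) D
  refine hs.fix hc (Subgroup.mem_top _) (Subgroup.mem_top _) fun ε hε => ?_
  obtain ⟨B, hB⟩ := ha_log (K := B₀ * (B₁ * B₃)) (by positivity) n hε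
  refine ⟨B, fun m => le_trans ?_ (hB m)⟩
  have hm : (d ^ m)⁻¹ ∈ M.C := inv_mem (pow_mem hd m)
  have h3 : (d ^ m)⁻¹ ∈ M.ballC (m * n) := M.inv_mem_ballC (by simpa using M.zpow_mem_ballC hn m)
  have h4 : (M.lenC (d ^ m)⁻¹ : ℝ) ≤ m * n := by exact_mod_cast M.lenC_le h3
  have h5 : Real.exp (α ⬝ᵥ M.chi (d ^ m)⁻¹) ≤ 1 := by
    rw [M.chi_inv, M.chi_pow, dotProduct_neg, dotProduct_smul, Real.exp_le_one_iff, neg_nonpos]
    exact mul_nonneg (Nat.cast_nonneg m) h0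
  have h6 : ‖M.Ad (d ^ m)⁻¹ Y‖ ≤ B₂ * ‖Y‖ * (1 + m * n) ^ D := by
    refine (h₂ _ hm α Y hY).trans ?_
    have : 0 ≤ B₂ := by linarith
    calc _ ≤ B₂ * (1 + m * n) ^ D * 1 * ‖Y‖ := by gcongr
      _ = _ := by ring
  have e : (d ^ m)⁻¹ * M.exp Y * d ^ m = M.exp (M.Ad (d ^ m)⁻¹ Y) := by rw [← M.conj, inv_inv]
  rw [e, mul_assoc, mul_assoc]
  refine (h₀ _).trans (mul_le_mul_of_nonneg_left ((h₁ _ (M.gr.C_W _ hm α Y hY)).trans ?_) hB₀)
  exact mul_le_mul_of_nonneg_left (h₃ _ _ (by positivity) (norm_nonneg _) h6) hB₁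

/-- If `0 ≤ α ⬝ᵥ chi d` then `(d ^ m)⁻¹ * exp Y * d ^ m = exp (Ad (d ^ m)⁻¹ Y)` with polynomial norm (`norm_Ad_C`), so logarithmic length (`logS_W`), and
`exists_norm_coc`, `Spd.fix` apply; otherwise use `Spd.inv`. -/
theorem spd_fix_W (hc : Coc π ⊤ c) (hcont : Continuous c) {d : M.G} (hd : d ∈ M.C) {s : 𝓗} (hs : Spd π c d s) {α : Fin k → ℝ} (hα : α ≠ 0)
    {Y : V h} (hY : Y ∈ M.W α) : π (M.exp Y) s = s := by
  rcases le_total 0 (α ⬝ᵥ M.chi d) with h0 | h0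
  · exact M.ha_fix hc hcont hd hs hα h0 hY
  · have := M.ha_fix hc hcont (inv_mem hd) hs.inv hα (by rwa [M.chi_inv, dotProduct_neg, neg_nonneg]) hY
    rwa [map_neg, neg_inj] at this

/-- `g = exp X * sec a`; `X = ∑ j, Pi.single j (X j)` is `In 𝒱 1 h` for the star set `𝒱 = ⋃ α, W α` (`single_mem_W`), `exists_reach`; `exp (W 0) ≤ C` -/
theorem fix_all {v : 𝓗} (h1 : ∀ g ∈ M.C, π g v = v) (h2 : ∀ α, α ≠ 0 → ∀ Y ∈ M.W α, π (M.exp Y) v = v) (g : M.G) : π g v = v := by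
  have hs : Star (⋃ α, (M.W α : Set (V h))) :=
    ⟨Set.mem_iUnion.2 ⟨0, Submodule.zero_mem _⟩, fun a _ X hX => by
      obtain ⟨α, hα⟩ := Set.mem_iUnion.1 hX
      exact Set.mem_iUnion.2 ⟨α, Submodule.smul_mem _ a hα⟩⟩
  have hi : M.In (⋃ α, (M.W α : Set (V h))) 1 (∑ j : Fin h, 1) (∑ j, Pi.single j (M.lgm g j)) :=
    Core.In.sum hs _ (fun _ _ => zero_le_one) fun j _ => Core.In.of_gen (Set.mem_iUnion.2 ⟨_, M.single_mem_W j _⟩)
  rw [Finset.univ_sum_single] at hi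
  obtain ⟨N, hN⟩ := M.exists_reach (∑ j : Fin h, (1 : ℝ))
  obtain ⟨l, -, hl, e⟩ := hN _ hs _ hi
  have h3 : ∀ l : List (V h), (∀ X ∈ l, X ∈ ⋃ α, (M.W α : Set (V h))) → π (l.map M.exp).prod v = v := by
    intro l hl
    induction l with
    | nil => simp
    | cons X l ih =>
      rw [List.map_cons, List.prod_cons, map_mul, LinearIsometryEquiv.coe_mul, Function.comp_apply,
        ih fun Y hY => hl Y (List.mem_cons_of_mem _ hY)]
      obtain ⟨α, hα⟩ := Set.mem_iUnion.1 (hl X List.mem_cons_self)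
      by_cases h0 : α = 0
      · exact h1 _ ((M.gr.C_exp X).2 (h0 ▸ hα))
      · exact h2 α h0 X hα
  rw [← M.exp_lgm g, map_mul, LinearIsometryEquiv.coe_mul, Function.comp_apply, h1 _ (M.sec_mem _), ← e, h3 l hl]

theorem spd_fix (hc : Coc π ⊤ c) (hcont : Continuous c) (hN : M.SubN c) {d : M.G} (hd : d ∈ M.C) {s : 𝓗} (hs : Spd π c d s) (g : M.G) :
    π g s = s :=
  M.fix_all (fun y hy => M.spd_fix_C hc hN hd hs hy) (fun α hα Y hY => M.spd_fix_W hc hcont hd hs hα hY) g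

/-- `exists_pieces` with `𝒜 = {α | α ≠ 0}` (`idl_ne`; `t α` from `exists_int_cone` for `{α}`, `v = α`), `Spd.conj` for the finitely many `t (wt j)`,
`exists_norm_coc`, `Coc.norm_list` -/
theorem sub_E (hc : Coc π ⊤ c) (hcont : Continuous c) (hN : M.SubN c) {ε : ℝ} (hε : 0 < ε) : ∃ B : ℝ, ∀ R : ℝ, 1 ≤ R → ∀ X ∈ M.E,
    ‖X‖ ≤ Real.exp R → ‖c (M.exp X)‖ ≤ ε * R + B := by
  have ht : ∀ α : Fin k → ℝ, ∃ d, α ≠ 0 → d ∈ M.C ∧ 0 < α ⬝ᵥ M.chi d := fun α => by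
    by_cases hα : α = 0
    · exact ⟨1, fun h => absurd hα h⟩
    · obtain ⟨d, hd, h⟩ := M.exists_int_cone (Set.finite_singleton α) (v := α) fun β hβ => by
        rw [Set.mem_singleton_iff.1 hβ, ← nm_sq]
        exact pow_pos (nm_pos hα) 2
      exact ⟨d, fun _ => ⟨hd, h α rfl⟩⟩
  choose t ht using ht
  obtain ⟨Λ, N, hΛ, hp⟩ := M.exists_pieces {α | α ≠ 0} t ht
  have hε' : 0 < ε / (Λ * (N + 1)) := by positivity
  have hB : ∀ j, ∃ B : ℝ, M.wt j ≠ 0 → ∀ (y : M.G) (m : ℕ),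
      ‖c (t (M.wt j) ^ m * y * (t (M.wt j) ^ m)⁻¹)‖ ≤ ε / (Λ * (N + 1)) * m + B + ‖c y‖ := fun j => by
    by_cases hj : M.wt j = 0
    · exact ⟨0, fun h => absurd hj h⟩
    · obtain ⟨s, hs⟩ := hc.exists_spd (g := t (M.wt j)) trivial
      obtain ⟨B, hB⟩ := Spd.conj hc trivial hs hε'
      exact ⟨B, fun _ y m => hB y trivial (M.spd_fix hc hcont hN (ht _ hj).1 hs y) m⟩
  choose B hB using hB
  obtain ⟨B0, hB0⟩ := (isCompact_closedBall (0 : V h) 1).exists_bound_of_continuousOn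
    (hcont.comp M.continuous_exp).continuousOn
  have hB0' : ∀ Y : V h, ‖Y‖ ≤ 1 → ‖c (M.exp Y)‖ ≤ B0 := fun Y hY => hB0 Y (mem_closedBall_zero_iff.2 hY)
  have h0 : 0 ≤ B0 := (norm_nonneg _).trans (hB0' 0 (by simp))
  have hS : 0 ≤ ∑ j, |B j| := Finset.sum_nonneg fun _ _ => abs_nonneg _
  refine ⟨(∑ j, |B j| + B0) * N, fun R hR X hX hXR => ?_⟩
  obtain ⟨u, hu, hprod, hy⟩ := hp R hR X (by rwa [M.idl_ne]) hXR
  have hb : 0 ≤ ε / (N + 1) * R := by positivity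
  have h1 := hc.norm_list (b := ε / (N + 1) * R + (∑ j, |B j| + B0)) u fun y hyu => by
    refine ⟨trivial, ?_⟩
    rcases hy y hyu with ⟨Y, hY, rfl⟩ | ⟨α, hα, ⟨j, rfl⟩, Y, -, hY, m, hm, rfl⟩
    · linarith [hB0' Y hY]
    · have h2 := hB j hα (M.exp Y) m
      have h3 : B j ≤ ∑ j, |B j| :=
        (le_abs_self _).trans (Finset.single_le_sum (f := fun j => |B j|) (fun _ _ => abs_nonneg _) (Finset.mem_univ j))
      have h4 : ε / (Λ * (N + 1)) * m ≤ ε / (N + 1) * R := by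
        calc _ ≤ ε / (Λ * (N + 1)) * (Λ * R) := by gcongr
          _ = _ := by field_simp
      linarith [hB0' Y hY]
  rw [hprod] at h1
  have h5 : (u.length : ℝ) ≤ N := by exact_mod_cast hu
  have h6 : ε / (N + 1) * R * N ≤ ε * R := by
    calc _ ≤ ε / (N + 1) * R * (N + 1) := by gcongr; linarith
      _ = _ := by field_simp
  have h7 := mul_le_mul_of_nonneg_left h5 (add_nonneg hb (add_nonneg hS h0))
  linarith

theorem absc_coc (hc : Coc π ⊤ c) {s : Fin k → 𝓗} (hf : ∀ i g, π g (s i) = s i) :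
    Coc π ⊤ fun g => c g - ∑ i, M.chi g i • s i :=
  hc.sub_hom (fun g _ g' _ => by simp only [M.chi_mul, Pi.add_apply, add_smul, Finset.sum_add_distrib])
    fun g _ g' _ => by simp only [map_sum, map_smul, hf]

/-- `c₁ g = c g - ∑ i, chi g i • s i` is a cocycle (`Coc.sub_hom`); `g = exp (lgm g) * sec (tv g)`, `exp_lgm_mem_ballC`, `natAbs_tv_le`, `Coc.norm_list` -/
theorem sub_C (hc : Coc π ⊤ c) (hN : M.SubN c) {s : Fin k → 𝓗} (hs : ∀ i, Spd π c (M.gen i) (s i)) (hf : ∀ i g, π g (s i) = s i) {ε : ℝ}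
    (hε : 0 < ε) : ∃ B : ℝ, ∀ n : ℕ, ∀ g ∈ M.ballC n, ‖c g - ∑ i, M.chi g i • s i‖ ≤ ε * n + B := by
  have hc₁ := M.absc_coc hc hf
  have hk : (0 : ℝ) < 2 * k + 1 := by positivity
  have hε' : 0 < ε / (2 * k + 1) := div_pos hε hk
  obtain ⟨B₁, h₁⟩ := hN _ hε'
  choose B hB using fun i => (hs i).2 _ hε'
  refine ⟨B₁ + (∑ i, |B i|) * k, fun n g hg => ?_⟩
  have h2 := h₁ _ _ (M.exp_lgm_mem_ballC hg) (M.tv_exp _)
  have h3 := hc₁.norm_list (b := ε / (2 * k + 1) * n + ∑ i, |B i|) (List.ofFn fun i => M.gen i ^ M.tv g i) fun x hx => by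
    obtain ⟨i, rfl⟩ := List.mem_ofFn.1 hx
    have e : ∑ j, M.chi (M.gen i ^ M.tv g i) j • s j = (M.tv g i : ℝ) • s i := by
      rw [M.chi_zpow, M.chi_gen, Finset.sum_eq_single i (fun j _ hj => by simp [hj]) (by simp)]
      simp
    have a1 : |(M.tv g i : ℝ)| ≤ n := (M.abs_tv_le g i).trans (Nat.cast_le.2 (M.ballC_subset_ball n hg))
    have a2 : B i ≤ ∑ i, |B i| :=
      (le_abs_self _).trans (Finset.single_le_sum (f := fun i => |B i|) (fun _ _ => abs_nonneg _) (Finset.mem_univ i))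
    refine ⟨trivial, ?_⟩
    rw [e]
    exact (hB i _).trans (add_le_add (mul_le_mul_of_nonneg_left a1 hε'.le) a2)
  have h4 := hc₁.norm_mul (g := M.exp (M.lgm g)) (g' := M.sec (M.tv g)) trivial trivial
  rw [M.exp_lgm, M.chi_exp] at h4
  simp only [Pi.zero_apply, zero_smul, Finset.sum_const_zero, sub_zero] at h4
  rw [List.length_ofFn] at h3
  have h5 : ε / (2 * k + 1) * (2 * k + 1) = ε := div_mul_cancel₀ _ hk.ne'
  generalize ε / (2 * k + 1) = e at h2 h3 h5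
  push_cast at h2
  rw [← h5]
  exact h4.trans ((add_le_add h2 h3).trans_eq (by ring))

/-- **ABS**: `sub_W_zero`, `exists_dec` (`‖X‖ ≤ exp (B n) ≤ exp (B n + 1)`), `sub_E`, `sub_C` -/
theorem abs_coc (hc : Coc π ⊤ c) (hcont : Continuous c) (hπ : ∀ v, Continuous fun g => π g v) (h0 : ∀ X ∈ M.W 0, Spd π c (M.exp X) 0) :
    ∃ s : Fin k → 𝓗, ∀ ε : ℝ, 0 < ε → ∃ B : ℝ, ∀ g, ‖c g - ∑ i, M.chi g i • s i‖ ≤ ε * M.len g + B := by
  have hN : M.SubN c := fun ε hε => M.sub_W_zero (hc.mono le_top) hcont hπ h0 hε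
  choose s hs using fun i => hc.exists_spd (g := M.gen i) trivial
  have hf : ∀ i g, π g (s i) = s i := fun i g => M.spd_fix hc hcont hN (M.gen_mem i) (hs i) g
  refine ⟨s, fun ε hε => ?_⟩
  obtain ⟨D, hD, hdec⟩ := M.exists_dec
  have hε' : 0 < ε / 2 / (D + 1) := by positivity
  obtain ⟨B₁, h₁⟩ := M.sub_E hc hcont hN hε'
  obtain ⟨B₂, h₂⟩ := M.sub_C hc hN hs hf (half_pos hε)
  refine ⟨ε / 2 / (D + 1) + B₁ + B₂, fun g => ?_⟩
  obtain ⟨X, hX, y, hy, hn, e⟩ := hdec (M.len g) g (M.mem_ball.2 le_rfl)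
  have h3 := h₁ (D * M.len g + 1) (le_add_of_nonneg_left (by positivity)) X hX
    (hn.trans (Real.exp_le_exp.2 (le_add_of_nonneg_right zero_le_one)))
  have h4 := (M.absc_coc hc hf).norm_mul (g := M.exp X) (g' := y) trivial trivial
  rw [← e, M.chi_exp] at h4
  simp only [Pi.zero_apply, zero_smul, Finset.sum_const_zero, sub_zero] at h4
  have h5 : ε / 2 / (D + 1) * (D + 1) = ε / 2 := div_mul_cancel₀ _ (by positivity)
  have h6 := h₂ _ y hy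
  have h7 : (0 : ℝ) ≤ M.len g := Nat.cast_nonneg _
  generalize ε / 2 / (D + 1) = e' at h3 h5 hε' ⊢
  nlinarith [mul_nonneg hε'.le h7]

end Model

end Crest.Agent.R182
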