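import Crest.Agent.R182.H.Gen

/-! R182/H/Avg (owner helper36): the mean ergodic theorem for balls of a Euclidean space. -/

set_option autoImplicit false
set_option linter.unusedVariables false
set_option linter.unusedSectionVars false
open Set Filter Topology MeasureTheory Matrix Crest.GroupTheory
open scoped Pointwise commutatorElement ENNReal InnerProductSpace

noncomputable section
namespace Crest.Agent.R182

section Avg
variable {𝓗 : Type*} [NormedAddCommGroup 𝓗] [InnerProductSpace ℝ 𝓗] [CompleteSpace 𝓗]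
  {T : Type} [NormedAddCommGroup T] [InnerProductSpace ℝ T] [FiniteDimensional ℝ T] [MeasurableSpace T] [BorelSpace T]

theorem ha_diff {f : T → 𝓗} (hf : Continuous f) {b : ℝ} (hb : ∀ z, ‖f z‖ ≤ b) {x : T} {R r : ℝ} (hr : 0 ≤ r)
    (hx : r + ‖x‖ ≤ R) : ‖(∫ z in Metric.closedBall x R, f z) - ∫ z in Metric.closedBall (0 : T) r, f z‖ ≤
      b * ((R ^ Module.finrank ℝ T - r ^ Module.finrank ℝ T) * volume.real (Metric.closedBall (0 : T) 1)) := by
  have h1 : Metric.closedBall (0 : T) r ⊆ Metric.closedBall x R :=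
    Metric.closedBall_subset_closedBall' (by rwa [dist_zero_left])
  have h2 := isCompact_closedBall x R
  rw [← setIntegral_sdiff measurableSet_closedBall (hf.continuousOn.integrableOn_compact h2) h1, sub_mul,
    ← Measure.addHaar_real_closedBall' volume x (hr.trans ((le_add_of_nonneg_right (norm_nonneg x)).trans hx)),
    ← Measure.addHaar_real_closedBall' volume 0 hr, ← measureReal_sdiff h1 measurableSet_closedBall h2.measure_ne_top]
  exact norm_setIntegral_le_of_norm_le_const ((measure_mono sdiff_subset).trans_lt h2.measure_lt_top) fun z _ => hb z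

/-- Følner property of balls: the two integrals differ on `closedBall 0 (R + ‖a‖) \ closedBall 0 (R - ‖a‖)` only; `Measure.addHaar_closedBall`,
translation invariance (`integral_add_right_eq_self` on indicators) -/
theorem avg_shift_tendsto {f : T → 𝓗} (hf : Continuous f) {b : ℝ} (hb : ∀ z, ‖f z‖ ≤ b) (a : T) :
    Tendsto (fun R : ℝ => (⨍ z in Metric.closedBall (0 : T) R, f (z + a)) - ⨍ z in Metric.closedBall (0 : T) R, f z) atTop (𝓝 0) := by
  have h1 : Tendsto (fun R : ℝ => 2 * b * (1 - (1 - ‖a‖ / R) ^ Module.finrank ℝ T)) atTop (𝓝 0) := by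
    simpa using ((((tendsto_const_nhds (x := ‖a‖)).div_atTop tendsto_id).const_sub 1).pow
      (Module.finrank ℝ T)).const_sub 1 |>.const_mul (2 * b)
  refine squeeze_zero_norm' ?_ h1
  filter_upwards [eventually_ge_atTop ‖a‖, eventually_gt_atTop 0] with R hR h0
  have h2 : ∫ z in Metric.closedBall (0 : T) R, f (z + a) = ∫ z in Metric.closedBall a R, f z := by
    rw [← (measurePreserving_add_right volume a).setIntegral_preimage_emb (measurableEmbedding_addRight a) f,
      Metric.preimage_add_right_closedBall, sub_self]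
  have h3 := ha_diff hf hb (x := a) (R := R) (sub_nonneg.2 hR) (sub_add_cancel _ _).le
  have h4 := ha_diff hf hb (x := 0) (R := R) (sub_nonneg.2 hR) (by rw [norm_zero, add_zero]; exact sub_le_self _ (norm_nonneg a))
  have h5 : 0 < volume.real (Metric.closedBall (0 : T) 1) :=
    ENNReal.toReal_pos (Metric.measure_closedBall_pos volume _ one_pos).ne' (isCompact_closedBall _ _).measure_ne_top
  have h6 := pow_pos h0 (Module.finrank ℝ T)
  rw [setAverage_eq, setAverage_eq, h2, ← smul_sub, norm_smul, Measure.addHaar_real_closedBall' volume 0 h0.le,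
    norm_inv, Real.norm_of_nonneg (mul_pos h6 h5).le, inv_mul_le_iff₀ (mul_pos h6 h5)]
  refine ((norm_sub_le_norm_sub_add_norm_sub _ _ _).trans (add_le_add h3 ((norm_sub_rev _ _).trans_le h4))).trans_eq ?_
  rw [one_sub_div h0.ne', div_pow]
  field_simp
  ring

/-- rotation invariance (`LinearIsometryEquiv.measurePreserving`) -/
theorem avg_rot (f : T → 𝓗) (θ : T ≃ₗᵢ[ℝ] T) (R : ℝ) :
    ⨍ z in Metric.closedBall (0 : T) R, f (θ z) = ⨍ z in Metric.closedBall (0 : T) R, f z := by
  rw [setAverage_eq, setAverage_eq,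
    ← θ.measurePreserving.setIntegral_preimage_emb θ.toHomeomorph.measurableEmbedding f, θ.preimage_closedBall, map_zero]

theorem hba_int (π : T → 𝓗 ≃ₗᵢ[ℝ] 𝓗) (hπ : ∀ v, Continuous fun z => π z v) (y : 𝓗) (R : ℝ) :
    Integrable (fun z => π z y) (volume.restrict (Metric.closedBall (0 : T) R)) :=
  (hπ y).continuousOn.integrableOn_compact (isCompact_closedBall 0 R)

theorem hb_add (π : T → 𝓗 ≃ₗᵢ[ℝ] 𝓗) (hπ : ∀ v, Continuous fun z => π z v) (y y' : 𝓗) (t : ℝ) (R : ℝ) :
    ⨍ z in Metric.closedBall (0 : T) R, π z (y + t • y') =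
      (⨍ z in Metric.closedBall (0 : T) R, π z y) + t • ⨍ z in Metric.closedBall (0 : T) R, π z y' := by
  simp only [map_add, map_smul, average_eq]
  rw [integral_add (hba_int π hπ y R) ((hba_int π hπ y' R).fun_smul t), integral_smul, smul_add, smul_comm t]

theorem hb_sub (π : T → 𝓗 ≃ₗᵢ[ℝ] 𝓗) (hπ : ∀ v, Continuous fun z => π z v) (y y' : 𝓗) (R : ℝ) :
    ⨍ z in Metric.closedBall (0 : T) R, π z (y - y') =
      (⨍ z in Metric.closedBall (0 : T) R, π z y) - ⨍ z in Metric.closedBall (0 : T) R, π z y' := by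
  simpa only [neg_one_smul, ← sub_eq_add_neg] using hb_add π hπ y y' (-1) R

theorem hb_norm (π : T → 𝓗 ≃ₗᵢ[ℝ] 𝓗) (y : 𝓗) (R : ℝ) : ‖⨍ z in Metric.closedBall (0 : T) R, π z y‖ ≤ ‖y‖ := by
  rw [setAverage_eq, norm_smul, norm_inv, Real.norm_of_nonneg measureReal_nonneg]
  refine (mul_le_mul_of_nonneg_left (norm_setIntegral_le_of_norm_le_const (C := ‖y‖)
    (isCompact_closedBall 0 R).measure_lt_top fun z _ => ((π z).norm_map y).le) (inv_nonneg.2 measureReal_nonneg)).trans ?_
  rw [mul_left_comm]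
  exact mul_le_of_le_one_right (norm_nonneg _) inv_mul_le_one

/-- The averages `A R` are contractions.  The set of `y ∈ H'` with `A R y → P y` is a closed subspace containing `Q` and all `π a y' - y'`,
`y' ∈ H'` (`avg_shift_tendsto`; they are orthogonal to `Q`).  A vector `y ∈ H'` orthogonal to all `π a y' - y'` satisfies `⟪y, π a y - y⟫ = 0`, so
`π a y = y`.  Hence (projecting onto the closure of the span of the `π a y' - y'`) the subspace is `H'`. -/
theorem avg_tendsto (π : T → 𝓗 ≃ₗᵢ[ℝ] 𝓗) (hπ : ∀ v, Continuous fun z => π z v) (H' : Submodule ℝ 𝓗) (hcl : IsClosed (H' : Set 𝓗))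
    (hinv : ∀ z, ∀ y ∈ H', π z y ∈ H') (hadd : ∀ z z', ∀ y ∈ H', π (z + z') y = π z (π z' y)) (Q : Submodule ℝ 𝓗)
    [Q.HasOrthogonalProjection] (hQ : ∀ y, y ∈ Q ↔ y ∈ H' ∧ ∀ z, π z y = y) {y : 𝓗} (hy : y ∈ H') :
    Tendsto (fun R : ℝ => ⨍ z in Metric.closedBall (0 : T) R, π z y) atTop (𝓝 (Q.starProjection y)) := by
  let L : Submodule ℝ 𝓗 :=
    { carrier := {y | Tendsto (fun R : ℝ => ⨍ z in Metric.closedBall (0 : T) R, π z y) atTop (𝓝 0)}
      add_mem' := fun {a b} ha hb => by
        have := hb_add π hπ a b 1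
        simp only [one_smul] at this
        simpa only [mem_ofPred_eq, this, add_zero] using Tendsto.add ha hb
      zero_mem' := by simp
      smul_mem' := fun t a ha => by
        have := hb_add π hπ 0 a t
        simp only [zero_add, map_zero, average_zero] at this
        simpa only [mem_ofPred_eq, this, smul_zero] using Tendsto.const_smul ha t }
  have hL : IsClosed (L : Set 𝓗) :=
    (LipschitzWith.uniformEquicontinuous (fun (R : ℝ) (y : 𝓗) => ⨍ z in Metric.closedBall (0 : T) R, π z y) 1 fun R =>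
      LipschitzWith.of_dist_le_mul fun a b => by
        rw [dist_eq_norm, dist_eq_norm, ← hb_sub π hπ, NNReal.coe_one, one_mul]
        exact hb_norm π _ R).equicontinuous.isClosed_setOfPred_tendsto continuous_const
  let K := (Submodule.span ℝ {w | ∃ a, ∃ y' ∈ H', w = π a y' - y'}).topologicalClosure
  have hK : ∀ {U : Submodule ℝ 𝓗}, IsClosed (U : Set 𝓗) → (∀ a, ∀ y' ∈ H', π a y' - y' ∈ U) → K ≤ U := fun hU h =>
    Submodule.topologicalClosure_minimal _ (Submodule.span_le.2 fun w ⟨a, y', h1, h2⟩ => h2 ▸ h a y' h1) hU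
  have h1 : K ≤ L := hK hL fun a y' hy' => by
    refine (avg_shift_tendsto (hπ y') (fun z => ((π z).norm_map y').le) a).congr fun R => ?_
    simp only [hb_sub π hπ, hadd _ _ y' hy']
  have h2 : K ≤ H' := hK hcl fun a y' hy' => H'.sub_mem (hinv a y' hy') hy'
  have h3 : K ≤ Qᗮ := hK Q.isClosed_orthogonal fun a y' hy' => (Q.mem_orthogonal _).2 fun u hu => by
    rw [inner_sub_right, ← (π a).inner_map_map u y', ((hQ u).1 hu).2 a, sub_self]
  have hk := K.starProjection_apply_mem y
  have h4 : y - K.starProjection y ∈ Q := by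
    refine (hQ _).2 ⟨H'.sub_mem hy (h2 hk), fun a => ?_⟩
    have h5 := (K.mem_orthogonal _).1 (K.sub_starProjection_mem_orthogonal y) _
      (Submodule.le_topologicalClosure _ (Submodule.subset_span ⟨a, _, H'.sub_mem hy (h2 hk), rfl⟩))
    rw [← sub_eq_zero, ← inner_self_eq_zero (𝕜 := ℝ), inner_sub_right, h5, inner_sub_left, (π a).inner_map_map]
    rw [inner_sub_left, real_inner_comm] at h5
    linarith
  rw [Submodule.eq_starProjection_of_mem_orthogonal h4 (by rw [sub_sub_cancel]; exact h3 hk)]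
  have h6 := Tendsto.add_const (y - K.starProjection y) (h1 hk)
  rw [zero_add] at h6
  refine h6.congr' ((eventually_gt_atTop 0).mono fun R hR => ?_)
  have h7 := hb_sub π hπ y (K.starProjection y) R
  simp only [((hQ _).1 h4).2] at h7
  rw [setAverage_const (Metric.measure_closedBall_pos _ _ hR).ne' (isCompact_closedBall 0 R).measure_lt_top.ne] at h7
  rw [h7, add_sub_cancel]

/-- uniform version on compact sets (finite `ε`-net; the averages and the projection are contractions) -/
theorem avg_unif (π : T → 𝓗 ≃ₗᵢ[ℝ] 𝓗) (hπ : ∀ v, Continuous fun z => π z v) (H' : Submodule ℝ 𝓗) (hcl : IsClosed (H' : Set 𝓗))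
    (hinv : ∀ z, ∀ y ∈ H', π z y ∈ H') (hadd : ∀ z z', ∀ y ∈ H', π (z + z') y = π z (π z' y)) (Q : Submodule ℝ 𝓗)
    [Q.HasOrthogonalProjection] (hQ : ∀ y, y ∈ Q ↔ y ∈ H' ∧ ∀ z, π z y = y) {S : Set 𝓗} (hS : IsCompact S) (hS' : S ⊆ H') {ε : ℝ}
    (hε : 0 < ε) : ∃ R : ℝ, 0 < R ∧ ∀ y ∈ S, ‖(⨍ z in Metric.closedBall (0 : T) R, π z y) - Q.starProjection y‖ ≤ ε := by
  have h1 := hS.mem_prod_nhdsSet_of_forall (l := (atTop : Filter ℝ))
    (s := {p | ‖(⨍ z in Metric.closedBall (0 : T) p.1, π z p.2) - Q.starProjection p.2‖ ≤ ε}) fun y hy => by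
      have h2 := Metric.tendsto_nhds.1 (avg_tendsto π hπ H' hcl hinv hadd Q hQ (hS' hy)) (ε / 3) (by positivity)
      filter_upwards [prod_mem_prod h2 (Metric.ball_mem_nhds y (by positivity : 0 < ε / 3))] with p hp
      have h3 : ‖(⨍ z in Metric.closedBall (0 : T) p.1, π z y) - Q.starProjection y‖ < ε / 3 := by
        rw [← dist_eq_norm]; exact hp.1
      have h4 : ‖p.2 - y‖ < ε / 3 := mem_ball_iff_norm.1 hp.2
      have h5 := hb_norm π (p.2 - y) p.1
      have h6 := Q.norm_starProjection_apply_le (p.2 - y)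
      rw [hb_sub π hπ] at h5
      rw [map_sub, norm_sub_rev] at h6
      linarith [norm_sub_le_norm_sub_add_norm_sub (⨍ z in Metric.closedBall (0 : T) p.1, π z p.2)
        (⨍ z in Metric.closedBall (0 : T) p.1, π z y) (Q.starProjection p.2), norm_sub_le_norm_sub_add_norm_sub
        (⨍ z in Metric.closedBall (0 : T) p.1, π z y) (Q.starProjection y) (Q.starProjection p.2)]
  obtain ⟨s, hs, t, ht, h2⟩ := mem_prod_iff.1 h1
  obtain ⟨R, hR, hR0⟩ := (Filter.Eventually.and hs (eventually_gt_atTop 0)).exists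
  exact ⟨R, hR0, fun y hy => h2 (mk_mem_prod hR (subset_of_mem_nhdsSet ht hy))⟩

/-- With `v = ⨍ c (e z)`: `c g + π g v = ⨍ c (g * e z) = ⨍ c (e (θ z) * g) = ⨍ c (e z * g) = v + ⨍ π (e z) (c g)` -/
theorem avg_identity {G : Type*} [Group G] {π : G →* (𝓗 ≃ₗᵢ[ℝ] 𝓗)} {Γ : Subgroup G} {c : G → 𝓗} (hc : Coc π Γ c) (e : T → G)
    (he : ∀ z, e z ∈ Γ) (h1 : Continuous fun z => c (e z)) (h2 : ∀ v, Continuous fun z => π (e z) v) {g : G} (hg : g ∈ Γ)
    (θ : T ≃ₗᵢ[ℝ] T) (hθ : ∀ z, c (g * e z) = c (e (θ z) * g)) {R : ℝ} (hR : 0 < R) :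
    c g - ((⨍ z in Metric.closedBall (0 : T) R, c (e z)) - π g (⨍ z in Metric.closedBall (0 : T) R, c (e z))) =
      ⨍ z in Metric.closedBall (0 : T) R, π (e z) (c g) := by
  have h0 := (Metric.measure_closedBall_pos (volume : Measure T) 0 hR).ne'
  have hK := isCompact_closedBall (0 : T) R
  have hadd : ∀ {u v : T → 𝓗}, Continuous u → Continuous v → ⨍ z in Metric.closedBall (0 : T) R, (u z + v z) =
      (⨍ z in Metric.closedBall (0 : T) R, u z) + ⨍ z in Metric.closedBall (0 : T) R, v z := fun hu hv => by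
    rw [setAverage_eq, setAverage_eq, setAverage_eq, integral_add (hu.continuousOn.integrableOn_compact hK)
      (hv.continuousOn.integrableOn_compact hK), smul_add]
  have h3 : ⨍ z in Metric.closedBall (0 : T) R, c (g * e z) = c g + π g (⨍ z in Metric.closedBall (0 : T) R, c (e z)) := by
    simp_rw [fun z => hc g hg (e z) (he z)]
    rw [hadd continuous_const ((π g).continuous.comp' h1), setAverage_const h0 hK.measure_ne_top, setAverage_eq, setAverage_eq,
      map_smul]
    congr 2
    exact (π g).toLinearIsometry.integral_comp_comm _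
  have h4 := avg_rot (fun z => c (e z * g)) θ R
  simp_rw [← hθ, h3, fun z => hc (e z) (he z) g hg] at h4
  rw [hadd h1 (h2 _)] at h4
  rw [sub_sub_eq_add_sub, h4, add_sub_cancel_left]

end Avg

end Crest.Agent.R182
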