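import Crest.Agent.R182.B.Defs
import Crest.Agent.R182.Cg.Dbl

/-! R182/H/Gen (owner helper36): cocycles of isometric representations; definitions and general facts. -/

set_option autoImplicit false
set_option linter.unusedVariables false
set_option linter.unusedSectionVars false
open Set Filter Topology MeasureTheory Matrix Crest.GroupTheory
open scoped Pointwise commutatorElement ENNReal InnerProductSpace

noncomputable section
namespace Crest.Agent.R182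

section Gen
variable {G : Type*} [Group G] {𝓗 : Type*} [NormedAddCommGroup 𝓗] [InnerProductSpace ℝ 𝓗]

/-- cocycles on a subgroup -/
def Coc (π : G →* (𝓗 ≃ₗᵢ[ℝ] 𝓗)) (Γ : Subgroup G) (c : G → 𝓗) : Prop := ∀ g ∈ Γ, ∀ g' ∈ Γ, c (g * g') = c g + π g (c g')

/-- fixed vectors -/
def Fx (π : G →* (𝓗 ≃ₗᵢ[ℝ] 𝓗)) (S : Set G) : Submodule ℝ 𝓗 where
  carrier := {v | ∀ g ∈ S, π g v = v}
  zero_mem' := fun g _ => map_zero _
  add_mem' := fun h h' g hg => by rw [map_add, h g hg, h' g hg]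
  smul_mem' := fun a v h g hg => by rw [map_smul, h g hg]

/-- `s` is the speed of `c` along `g` -/
def Spd (π : G →* (𝓗 ≃ₗᵢ[ℝ] 𝓗)) (c : G → 𝓗) (g : G) (s : 𝓗) : Prop :=
  π g s = s ∧ ∀ ε : ℝ, 0 < ε → ∃ B : ℝ, ∀ m : ℤ, ‖c (g ^ m) - (m : ℝ) • s‖ ≤ ε * |(m : ℝ)| + B

variable {π : G →* (𝓗 ≃ₗᵢ[ℝ] 𝓗)} {Γ : Subgroup G} {c c' : G → 𝓗} {g g' : G} {S : Set G}

theorem mem_Fx {v : 𝓗} : v ∈ Fx π S ↔ ∀ g ∈ S, π g v = v := Iff.rfl

theorem isClosed_Fx (π : G →* (𝓗 ≃ₗᵢ[ℝ] 𝓗)) (S : Set G) : IsClosed (Fx π S : Set 𝓗) := by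
  have : (Fx π S : Set 𝓗) = ⋂ g ∈ S, {v | π g v = v} := by
    ext v
    simp [mem_Fx]
  rw [this]
  exact isClosed_biInter fun g _ => isClosed_eq (π g).continuous continuous_id

instance [CompleteSpace 𝓗] (π : G →* (𝓗 ≃ₗᵢ[ℝ] 𝓗)) (S : Set G) : (Fx π S).HasOrthogonalProjection :=
  haveI := (isClosed_Fx π S).completeSpace_coe
  inferInstance

theorem Coc.mono (hc : Coc π Γ c) {Γ' : Subgroup G} (h : Γ' ≤ Γ) : Coc π Γ' c := fun g hg g' hg' => hc g (h hg) g' (h hg')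

theorem Coc.one (hc : Coc π Γ c) : c 1 = 0 := by
  have := hc 1 (one_mem _) 1 (one_mem _)
  simpa using this

theorem Coc.inv (hc : Coc π Γ c) (hg : g ∈ Γ) : c g⁻¹ = -π g⁻¹ (c g) := by
  have := hc g⁻¹ (inv_mem hg) g hg
  rw [inv_mul_cancel, hc.one] at this
  exact eq_neg_of_add_eq_zero_left this.symm

theorem Coc.norm_inv (hc : Coc π Γ c) (hg : g ∈ Γ) : ‖c g⁻¹‖ = ‖c g‖ := by
  rw [hc.inv hg, norm_neg, LinearIsometryEquiv.norm_map]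

theorem Coc.norm_mul (hc : Coc π Γ c) (hg : g ∈ Γ) (hg' : g' ∈ Γ) : ‖c (g * g')‖ ≤ ‖c g‖ + ‖c g'‖ := by
  rw [hc g hg g' hg']
  exact (norm_add_le _ _).trans_eq (by rw [LinearIsometryEquiv.norm_map])

theorem Coc.norm_sub (hc : Coc π Γ c) (hg : g ∈ Γ) (hg' : g' ∈ Γ) : ‖c (g * g') - c g‖ = ‖c g'‖ := by
  rw [hc g hg g' hg', add_sub_cancel_left, LinearIsometryEquiv.norm_map]

theorem Coc.norm_list (hc : Coc π Γ c) {b : ℝ} (l : List G) (hl : ∀ x ∈ l, x ∈ Γ ∧ ‖c x‖ ≤ b) : ‖c l.prod‖ ≤ b * l.length := by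
  induction l with
  | nil => simp [hc.one]
  | cons x l ih =>
    have h1 := hl x List.mem_cons_self
    have h2 : ∀ y ∈ l, y ∈ Γ ∧ ‖c y‖ ≤ b := fun y hy => hl y (List.mem_cons_of_mem _ hy)
    rw [List.prod_cons, List.length_cons, Nat.cast_succ]
    linarith [hc.norm_mul h1.1 (list_prod_mem fun y hy => (h2 y hy).1), ih h2, h1.2]

theorem Coc.sub (hc : Coc π Γ c) (hc' : Coc π Γ c') : Coc π Γ fun g => c g - c' g := by
  intro g hg g' hg'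
  simp only [hc g hg g' hg', hc' g hg g' hg', map_sub]
  abel

theorem coc_cob (π : G →* (𝓗 ≃ₗᵢ[ℝ] 𝓗)) (Γ : Subgroup G) (v : 𝓗) : Coc π Γ fun g => v - π g v := by
  intro g hg g' hg'
  simp only [map_mul, map_sub, LinearIsometryEquiv.coe_mul, Function.comp_apply]
  abel

/-- subtracting an additive map with fixed values -/
theorem Coc.sub_hom (hc : Coc π Γ c) {a : G → 𝓗} (ha : ∀ g ∈ Γ, ∀ g' ∈ Γ, a (g * g') = a g + a g')
    (hf : ∀ g ∈ Γ, ∀ g' ∈ Γ, π g (a g') = a g') : Coc π Γ fun g => c g - a g := by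
  intro g hg g' hg'
  simp only [hc g hg g' hg', ha g hg g' hg', map_sub, hf g hg g' hg']
  abel

theorem genb_iter (π : G →* (𝓗 ≃ₗᵢ[ℝ] 𝓗)) (g : G) (n : ℕ) (x : 𝓗) : (π g)^[n] x = π (g ^ n) x := by
  induction n with
  | zero => simp
  | succ n ih => rw [Function.iterate_succ_apply', ih, pow_succ', map_mul]; rfl

theorem genb_sum (hc : Coc π Γ c) (hg : g ∈ Γ) (n : ℕ) : c (g ^ n) = birkhoffSum (π g) _root_.id n (c g) := by
  induction n with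
  | zero => simp [hc.one]
  | succ n ih => rw [birkhoffSum_succ, ← ih, pow_succ, hc _ (pow_mem hg n) _ hg, genb_iter]; rfl

theorem genb_lin {u : ℕ → 𝓗} {s : 𝓗} (h : Tendsto (fun n : ℕ => (n : ℝ)⁻¹ • u n) atTop (𝓝 s)) {ε : ℝ} (hε : 0 < ε) :
    ∃ B : ℝ, ∀ n : ℕ, ‖u n - (n : ℝ) • s‖ ≤ ε * n + B := by
  obtain ⟨N, hN⟩ := Metric.tendsto_atTop.1 h ε hε
  refine ⟨∑ n ∈ Finset.range (N + 1), ‖u n - (n : ℝ) • s‖, fun n => ?_⟩
  have h0 : 0 ≤ ∑ n ∈ Finset.range (N + 1), ‖u n - (n : ℝ) • s‖ := Finset.sum_nonneg fun _ _ => norm_nonneg _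
  rcases lt_or_ge n (N + 1) with hn | hn
  · have := Finset.single_le_sum (f := fun n : ℕ => ‖u n - (n : ℝ) • s‖) (fun _ _ => norm_nonneg _) (Finset.mem_range.2 hn)
    have : 0 ≤ ε * n := by positivity
    linarith
  · have hn0 : (0 : ℝ) < n := by exact_mod_cast (by omega : 0 < n)
    have h1 := hN n (by omega)
    rw [dist_eq_norm] at h1
    have e : u n - (n : ℝ) • s = (n : ℝ) • ((n : ℝ)⁻¹ • u n - s) := by
      rw [smul_sub, smul_inv_smul₀ hn0.ne']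
    rw [e, norm_smul, Real.norm_natCast]
    nlinarith

/-- von Neumann: `c (g ^ n) = ∑ i < n, π g ^ i (c g)`, `ContinuousLinearMap.tendsto_birkhoffAverage_orthogonalProjection`; negative exponents by
`Coc.inv` and `π g⁻¹ s = s` -/
theorem Coc.exists_spd [CompleteSpace 𝓗] (hc : Coc π Γ c) (hg : g ∈ Γ) : ∃ s, Spd π c g s := by
  let f : 𝓗 →L[ℝ] 𝓗 := (π g).toLinearIsometry.toContinuousLinearMap
  have h1 := f.tendsto_birkhoffAverage_orthogonalProjection (π g).toLinearIsometry.norm_toContinuousLinearMap_le (c g)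
  set s := (f.eqLocus (1 : 𝓗 →L[ℝ] 𝓗)).orthogonalProjectionOnto (c g)
  have hs : π g s = s := s.2
  have hn : ∀ n : ℕ, π (g ^ n) s = s := fun n => by rw [← genb_iter]; exact Function.iterate_fixed hs n
  refine ⟨s, hs, fun ε hε => ?_⟩
  obtain ⟨B, hB⟩ := genb_lin (u := fun n => c (g ^ n)) (s := s) (by
    simp only [genb_sum hc hg]
    exact h1) hε
  refine ⟨B, fun m => ?_⟩
  obtain ⟨n, rfl | rfl⟩ := Int.eq_nat_or_neg m
  · simpa using hB n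
  · have e : π (g ^ n)⁻¹ (s : 𝓗) = s := by
      conv_lhs => rw [← hn n]
      rw [map_inv]
      exact (π (g ^ n)).symm_apply_apply _
    have e2 : c (g ^ (-(n : ℤ))) - ((-(n : ℤ) : ℤ) : ℝ) • (s : 𝓗) = -π (g ^ n)⁻¹ (c (g ^ n) - (n : ℝ) • (s : 𝓗)) := by
      rw [_root_.zpow_neg, zpow_natCast, hc.inv (pow_mem hg n), map_sub, map_smul, e]
      simp
      abel
    rw [e2, norm_neg, LinearIsometryEquiv.norm_map]
    simpa using hB n

theorem Spd.inv {s : 𝓗} (hs : Spd π c g s) : Spd π c g⁻¹ (-s) := by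
  refine ⟨?_, fun ε hε => ?_⟩
  · rw [map_neg, neg_inj]
    conv_lhs => rw [← hs.1]
    rw [map_inv]
    exact (π g).symm_apply_apply _
  · obtain ⟨B, hB⟩ := hs.2 ε hε
    refine ⟨B, fun m => ?_⟩
    have := hB (-m)
    simpa using this

theorem hc_le_zero {x : ℝ} (h : ∀ ε : ℝ, 0 < ε → ∃ B : ℝ, ∀ m : ℕ, (m : ℝ) * x ≤ ε * m + B) : x ≤ 0 := by
  by_contra hx
  push Not at hx
  obtain ⟨B, hB⟩ := h (x / 2) (half_pos hx)
  obtain ⟨m, hm⟩ := exists_nat_gt (2 * B / x)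
  have h1 := hB m
  rw [div_lt_iff₀ hx] at hm
  linarith

theorem hc_pow_fix {s : 𝓗} (hs : π g s = s) (m : ℕ) : π (g ^ m) s = s := by
  induction m with
  | zero => simp
  | succ m ih => rw [pow_succ, map_mul, LinearIsometryEquiv.coe_mul, Function.comp_apply, hs, ih]

/-- `c (y * g ^ m) = c y + π y (c (g ^ m)) = c (g ^ m) + π (g ^ m) (c ((g ^ m)⁻¹ * y * g ^ m))`, so `m * ‖π y s - s‖ ≤ 3 ε m + B` -/
theorem Spd.fix (hc : Coc π Γ c) (hg : g ∈ Γ) {s : 𝓗} (hs : Spd π c g s) {y : G} (hy : y ∈ Γ)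
    (h : ∀ ε : ℝ, 0 < ε → ∃ B : ℝ, ∀ m : ℕ, ‖c ((g ^ m)⁻¹ * y * g ^ m)‖ ≤ ε * m + B) : π y s = s := by
  rw [← sub_eq_zero, ← norm_le_zero_iff]
  refine hc_le_zero fun ε hε => ?_
  obtain ⟨B, hB⟩ := hs.2 (ε / 3) (by positivity)
  obtain ⟨B', hB'⟩ := h (ε / 3) (by positivity)
  refine ⟨2 * B + B' + ‖c y‖, fun m => ?_⟩
  have hm : g ^ m ∈ Γ := Γ.pow_mem hg m
  have h1 := hc y hy (g ^ m) hm
  have h2 := hc (g ^ m) hm ((g ^ m)⁻¹ * y * g ^ m) (Γ.mul_mem (Γ.mul_mem (Γ.inv_mem hm) hy) hm)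
  have e : g ^ m * ((g ^ m)⁻¹ * y * g ^ m) = y * g ^ m := by group
  rw [e, h1] at h2
  have h3 := hB (m : ℤ)
  rw [zpow_natCast, Int.cast_natCast, Nat.abs_cast] at h3
  have h4 := hB' m
  have e2 : (m : ℝ) • (π y s - s) = (c (g ^ m) - (m : ℝ) • s) - π y (c (g ^ m) - (m : ℝ) • s) +
      π (g ^ m) (c ((g ^ m)⁻¹ * y * g ^ m)) - c y := by
    rw [map_sub, map_smul, smul_sub, eq_sub_of_add_eq' h2.symm]
    abel
  have h5 : ‖(m : ℝ) • (π y s - s)‖ ≤ ‖c (g ^ m) - (m : ℝ) • s‖ + ‖c (g ^ m) - (m : ℝ) • s‖ +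
      ‖c ((g ^ m)⁻¹ * y * g ^ m)‖ + ‖c y‖ := by
    rw [e2]
    refine (norm_sub_le _ _).trans (add_le_add ((norm_add_le _ _).trans (add_le_add
      ((norm_sub_le _ _).trans ?_) ?_)) le_rfl)
    · rw [LinearIsometryEquiv.norm_map]
    · rw [LinearIsometryEquiv.norm_map]
  rw [norm_smul, Real.norm_natCast] at h5
  linarith

/-- `c (g ^ m * y * (g ^ m)⁻¹) = c (g ^ m) + π (g ^ m) (c y) + π (g ^ m * y) (c (g ^ (-m)))` -/
theorem Spd.conj (hc : Coc π Γ c) (hg : g ∈ Γ) {s : 𝓗} (hs : Spd π c g s) {ε : ℝ} (hε : 0 < ε) : ∃ B : ℝ, ∀ y ∈ Γ, π y s = s →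
    ∀ m : ℕ, ‖c (g ^ m * y * (g ^ m)⁻¹)‖ ≤ ε * m + B + ‖c y‖ := by
  obtain ⟨B, hB⟩ := hs.2 (ε / 2) (half_pos hε)
  refine ⟨2 * B, fun y hy hys m => ?_⟩
  have hm : g ^ m ∈ Γ := Γ.pow_mem hg m
  have h1 := hc (g ^ m) hm (y * (g ^ m)⁻¹) (Γ.mul_mem hy (Γ.inv_mem hm))
  have h2 := hc y hy (g ^ m)⁻¹ (Γ.inv_mem hm)
  have h3 := hB (m : ℤ)
  rw [zpow_natCast, Int.cast_natCast, Nat.abs_cast] at h3
  have h4 := hB (-(m : ℤ))
  rw [_root_.zpow_neg, zpow_natCast, Int.cast_neg, Int.cast_natCast, abs_neg, Nat.abs_cast] at h4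
  have e : c (g ^ m * y * (g ^ m)⁻¹) = (c (g ^ m) - (m : ℝ) • s) +
      π (g ^ m) (π y (c (g ^ m)⁻¹ - (-(m : ℝ)) • s)) + π (g ^ m) (c y) := by
    rw [mul_assoc, h1, h2]
    simp only [map_add, map_sub, map_smul, hys, hc_pow_fix hs.1 m, neg_smul, map_neg]
    abel
  have h5 : ‖c (g ^ m * y * (g ^ m)⁻¹)‖ ≤ ‖c (g ^ m) - (m : ℝ) • s‖ + ‖c (g ^ m)⁻¹ - (-(m : ℝ)) • s‖ + ‖c y‖ := by
    rw [e]
    refine (norm_add_le _ _).trans (add_le_add ((norm_add_le _ _).trans ?_) ?_)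
    · rw [LinearIsometryEquiv.norm_map, LinearIsometryEquiv.norm_map]
    · rw [LinearIsometryEquiv.norm_map]
  linarith

theorem Spd.eq_zero {s : 𝓗} (hs : Spd π c g s) (h : ∀ σ : ℝ, 0 < σ → ∀ n₀ : ℕ, ∃ n ≥ n₀, ‖c (g ^ n)‖ ≤ σ * n) : s = 0 := by
  by_contra h0
  have hp : 0 < ‖s‖ := norm_pos_iff.2 h0
  obtain ⟨B, hB⟩ := hs.2 (‖s‖ / 3) (by positivity)
  obtain ⟨N, hN⟩ := exists_nat_gt (B / (‖s‖ / 3))
  obtain ⟨n, hn, h1⟩ := h (‖s‖ / 3) (by positivity) N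
  have h2 := hB n
  simp only [zpow_natCast, Int.cast_natCast, Nat.abs_cast] at h2
  have h3 : ‖(n : ℝ) • s‖ ≤ ‖c (g ^ n)‖ + ‖c (g ^ n) - (n : ℝ) • s‖ := by
    rw [norm_sub_rev]
    exact norm_le_norm_add_norm_sub' _ _
  rw [norm_smul, Real.norm_natCast] at h3
  rw [div_lt_iff₀ (by positivity)] at hN
  have h4 : (N : ℝ) ≤ n := by exact_mod_cast hn
  nlinarith

theorem hc_map_mem (h2 : ∀ x ∈ S, g⁻¹ * x * g ∈ S) {v : 𝓗} (hv : v ∈ Fx π S) : π g v ∈ Fx π S := by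
  intro x hx
  have h := congrArg (π g) (hv _ (h2 x hx))
  have e : π g (π (g⁻¹ * x * g) v) = π x (π g v) := by
    change (π g * π (g⁻¹ * x * g)) v = (π x * π g) v
    rw [← map_mul, ← map_mul]
    congr 2
    group
  rwa [e] at h

/-- `π g` maps `Fx π S` and its orthogonal complement into themselves -/
theorem Fx.proj_comm [CompleteSpace 𝓗] (h1 : ∀ x ∈ S, g * x * g⁻¹ ∈ S) (h2 : ∀ x ∈ S, g⁻¹ * x * g ∈ S) (v : 𝓗) :
    (Fx π S).starProjection (π g v) = π g ((Fx π S).starProjection v) := by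
  refine Submodule.eq_starProjection_of_mem_of_inner_eq_zero
    (hc_map_mem h2 (Submodule.starProjection_apply_mem _ v)) fun w hw => ?_
  have hw' : π g⁻¹ w ∈ Fx π S := hc_map_mem (g := g⁻¹) (by simpa using h1) hw
  have e : w = π g (π g⁻¹ w) := by
    change w = (π g * π g⁻¹) w
    rw [← map_mul, mul_inv_cancel, map_one]
    rfl
  rw [← map_sub, e, LinearIsometryEquiv.inner_map_map]
  exact Submodule.starProjection_inner_eq_zero v _ hw'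

theorem Coc.proj [CompleteSpace 𝓗] (hc : Coc π Γ c) (hS : ∀ g ∈ Γ, ∀ x ∈ S, g * x * g⁻¹ ∈ S) :
    Coc π Γ fun g => (Fx π S).starProjection (c g) := by
  intro g hg g' hg'
  simp only
  rw [hc g hg g' hg', map_add, Fx.proj_comm (hS g hg) (by simpa using hS g⁻¹ (Γ.inv_mem hg))]

/-- `P (c (u ^ n)) = n • P (c u)` and `‖P‖ ≤ 1` -/
theorem Coc.proj_eq_zero [CompleteSpace 𝓗] (hc : Coc π Γ c) (hS : ∀ g ∈ Γ, ∀ x ∈ S, g * x * g⁻¹ ∈ S) {u : G} (hu : u ∈ S) (hu' : u ∈ Γ)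
    (h0 : Spd π c u 0) : (Fx π S).starProjection (c u) = 0 := by
  have hP := hc.proj hS
  have key : ∀ m : ℕ, (Fx π S).starProjection (c (u ^ m)) = (m : ℝ) • (Fx π S).starProjection (c u) := by
    intro m
    induction m with
    | zero => simp [hc.one]
    | succ m ih =>
      have h1 := hP u hu' (u ^ m) (Γ.pow_mem hu' m)
      simp only at h1
      rw [pow_succ', h1, (Submodule.starProjection_apply_mem (Fx π S) (c (u ^ m))) u hu, ih]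
      push_cast
      rw [add_smul, one_smul, add_comm]
  rw [← norm_le_zero_iff]
  refine hc_le_zero fun ε hε => ?_
  obtain ⟨B, hB⟩ := h0.2 ε hε
  refine ⟨B, fun m => ?_⟩
  have h3 := hB (m : ℤ)
  rw [zpow_natCast, Int.cast_natCast, Nat.abs_cast, smul_zero, sub_zero] at h3
  have h4 := Submodule.norm_starProjection_apply_le (Fx π S) (c (u ^ m))
  rw [key, norm_smul, Real.norm_natCast] at h4
  linarith

end Gen

namespace Model
variable {h k : ℕ} (M : Model h k) {𝓗 : Type*} [NormedAddCommGroup 𝓗] [InnerProductSpace ℝ 𝓗]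

/-- sublinear on `C` -/
def SubC (c : M.G → 𝓗) : Prop := ∀ ε : ℝ, 0 < ε → ∃ B : ℝ, ∀ n : ℕ, ∀ g ∈ M.ballC n, ‖c g‖ ≤ ε * n + B

/-- `c` describes the limit along `𝒰` of the height increments of `φ m` in `L² (μ m)`, up to the constant `C₀` -/
structure Lim (𝒰 : Ultrafilter ℕ) (φ : ℕ → M.G → M.G) (μ : ℕ → Measure M.G) (C₀ : ℝ) (c : M.G → 𝓗) : Prop where
  up : ∀ (ι : Type) [Fintype ι] (a : ι → ℝ) (g : ι → M.G) (t δ : ℝ), 0 < t → 0 < δ → ∀ᶠ m in (𝒰 : Filter ℕ),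
    μ m {p | t + C₀ * ∑ l, |a l| < ‖∑ l, a l • M.cc (φ m) (g l) p‖} ≤ ENNReal.ofReal (‖∑ l, a l • c (g l)‖ ^ 2 / t ^ 2 + δ)
  low : ∀ (g : M.G) (t δ B : ℝ), 0 ≤ t → 0 ≤ δ → (∀ m p, ‖M.cc (φ m) g p‖ ≤ B) →
    (∀ᶠ m in (𝒰 : Filter ℕ), μ m {p | t ≤ ‖M.cc (φ m) g p‖} ≤ ENNReal.ofReal δ) → ‖c g‖ ^ 2 ≤ k * ((t + C₀) ^ 2 + (B + C₀) ^ 2 * δ)

variable {π : M.G →* (𝓗 ≃ₗᵢ[ℝ] 𝓗)} {c c' : M.G → 𝓗}

theorem SubC.add {M : Model h k} {c c' : M.G → 𝓗} (h1 : M.SubC c) (h2 : M.SubC c') : M.SubC fun g => c g + c' g := by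
  intro ε hε
  obtain ⟨B, hB⟩ := h1 (ε / 2) (half_pos hε)
  obtain ⟨B', hB'⟩ := h2 (ε / 2) (half_pos hε)
  exact ⟨B + B', fun n g hg => (norm_add_le _ _).trans (by linarith [hB n g hg, hB' n g hg])⟩

/-- `c` is bounded on the compact set `ball 1`; `wl_ex`, `Coc.norm_list` -/
theorem exists_norm_coc (hc : Coc π ⊤ c) (hcont : Continuous c) : ∃ B : ℝ, 0 ≤ B ∧ ∀ g, ‖c g‖ ≤ B * M.len g := by
  obtain ⟨B, hB⟩ := (M.isCompact_ball' 1).exists_bound_of_continuousOn hcont.continuousOn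
  refine ⟨B, (norm_nonneg _).trans (hB 1 (M.one_mem_ball 1)), fun g => ?_⟩
  obtain ⟨l, h1, h2, rfl⟩ := wl_ex M.closure_K g
  rw [len, ← h1]
  refine hc.norm_list l fun x hx => ⟨trivial, hB x ((h2 x hx).elim wl_le_one fun h => ?_)⟩
  exact inv_inv x ▸ M.inv_mem_ball (wl_le_one h)

/-- `c g - (v - π g v)` is a cocycle of norm `≤ ε` on the letters -/
theorem subC_of_approx (hc : Coc π M.C c) (h : ∀ ε : ℝ, 0 < ε → ∃ v, ∀ g ∈ M.ballC 1, ‖c g - (v - π g v)‖ ≤ ε) : M.SubC c := by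
  intro ε hε
  obtain ⟨v, hv⟩ := h ε hε
  refine ⟨2 * ‖v‖, ?_⟩
  rintro n _ ⟨l, h1, h2, rfl⟩
  have h3 := (hc.sub (coc_cob π M.C v)).norm_list l fun x hx =>
    ⟨M.ballC_subset_C 1 (M.mem_ballC_one (h2 x hx)), hv x (M.mem_ballC_one (h2 x hx))⟩
  have h4 := norm_sub_le v (π l.prod v)
  rw [LinearIsometryEquiv.norm_map] at h4
  have h5 : ε * (l.length : ℝ) ≤ ε * n := by gcongr
  linarith [norm_le_insert' (c l.prod) (v - π l.prod v)]

end Model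

end Crest.Agent.R182
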