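import Crest.Agent.R182.H.Avg

/-! R182/H/Step (owner helper36): cocycles with vanishing speeds are sublinear on `exp (W 0)`. -/

set_option autoImplicit false
set_option linter.unusedVariables false
set_option linter.unusedSectionVars false
open Set Filter Topology MeasureTheory Matrix Crest.GroupTheory
open scoped Pointwise commutatorElement ENNReal InnerProductSpace

noncomputable section
namespace Crest.Agent.R182

namespace Model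
variable {h k : ℕ} (M : Model h k) {𝓗 : Type*} [NormedAddCommGroup 𝓗] [InnerProductSpace ℝ 𝓗] [CompleteSpace 𝓗]
  {π : M.G →* (𝓗 ≃ₗᵢ[ℝ] 𝓗)} {c : M.G → 𝓗} {U : Submodule ℝ (V h)}

/-- `mem_of_ex_mem`, `Ad_exp`, `br_pow_cl` -/
theorem br_mem_of_inv (hU : ∀ g ∈ M.C, ∀ X ∈ U, M.Ad g X ∈ U) {Y : V h} (hY : Y ∈ M.W 0) {X : V h} (hX : X ∈ U) : M.br Y X ∈ U := by
  refine mem_of_ex_mem (M.br_pow_cl Y) (fun Z hZ => ?_) X hX
  rw [← M.Ad_exp]
  exact hU _ ((M.grading.C_exp Y).2 hY) Z hZ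

/-- `exists_flagC` (`n ≠ 0` as `cxS U ≠ ⊥`), `Flag.exists_dual`, `ℓ X = ℓ' (emb X)` (`emb_re_im`, `cx_emb`).  `χ (exp Y) = 1` (`Flag.χ_eq_one`, `unipC`), so
`ℓ (Ad (exp Y) X - X) = 0` on `U`; `Ad (exp Y) - 1 = br Y ∘ (unipotent operator preserving U)`, or use `lg`: compare the proof of `mem_of_ex_mem`, or the
polynomial identity in `t` for `t • Y`. -/
theorem exists_real_step (hU : ∀ g ∈ M.C, ∀ X ∈ U, M.Ad g X ∈ U) (h0 : U ≤ M.W 0) (hne : U ≠ ⊥) :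
    ∃ (ℓ : V h →ₗ[ℝ] ℂ) (χ : M.G → ℂ), (∃ X ∈ U, ℓ X ≠ 0) ∧ (∀ g ∈ M.C, ‖χ g‖ = 1) ∧ (∀ g ∈ M.C, ∀ X ∈ U, ℓ (M.Ad g X) = χ g * ℓ X) ∧
      ∀ Y ∈ M.W 0, ∀ X ∈ U, ℓ (M.br Y X) = 0 := by
  obtain ⟨n, fl, hχ⟩ := M.exists_flagC hU h0
  obtain ⟨m, rfl⟩ : ∃ m, n = m + 1 := Nat.exists_eq_succ_of_ne_zero fun e => by
    subst e
    refine hne ((Submodule.eq_bot_iff _).2 fun X hX => ?_)
    have : emb X ∈ fl.U 0 := fl.top.ge (emb_mem_cxS.2 hX)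
    rw [fl.zero, Submodule.mem_bot] at this
    exact congrArg reV this
  obtain ⟨ℓ', ⟨w, hwU, hw⟩, hℓ'⟩ := fl.exists_dual rfl
  let ℓ : V h →ₗ[ℝ] ℂ := ℓ'.restrictScalars ℝ ∘ₗ (Algebra.linearMap ℝ ℂ).compLeft (Fin h)
  have hℓ : ∀ X, ℓ X = ℓ' (emb X) := fun X => rfl
  have hA : ∀ g ∈ M.C, ∀ X ∈ U, ℓ (M.Ad g X) = fl.χ m g * ℓ X := fun g hg X hX => by
    rw [hℓ, hℓ, ← cx_emb]; exact hℓ' g hg _ (emb_mem_cxS.2 hX)
  refine ⟨ℓ, fl.χ m, by_contra fun hn => hw ?_, hχ m m.lt_succ_self, hA, fun Y hY X hX => ?_⟩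
  · push Not at hn
    rw [emb_re_im w, map_add, map_smul, ← hℓ, ← hℓ, hn _ hwU.1, hn _ hwU.2, smul_zero, add_zero]
  · have hC := (M.grading.C_exp Y).2 hY
    have h1 := fl.χ_eq_one m.lt_succ_self hC (M.unipC.isNilpotent ((M.τ_ker _).2 ⟨Y, rfl⟩))
    have key : ∀ i : ℕ, ((M.Ad (M.exp Y) - 1) ^ i : Module.End ℝ (V h)) X ∈ U := fun i => by
      induction i with
      | zero => exact hX
      | succ i ih => rw [pow_succ', Module.End.mul_apply, LinearMap.sub_apply]; exact U.sub_mem (hU _ hC _ ih) ih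
    rw [← lg_ex (M.br_pow_cl Y), ← M.Ad_exp, lg, LinearMap.sum_apply, map_sum]
    refine Finset.sum_eq_zero fun i _ => ?_
    rw [LinearMap.smul_apply, map_smul]
    rcases i with _ | i
    · simp
    · rw [pow_succ' _ i, Module.End.mul_apply, LinearMap.sub_apply, map_sub, hA _ hC _ (key i), h1, one_mul,
        Module.End.one_apply, sub_self, smul_zero]

/-- The quotient `U / U'`, `U' = U ⊓ ker ℓ`, as the Euclidean space `T = U.map ℓ ≤ ℂ`: `σ` is a linear section, `θ g` the multiplication by `χ g`.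
If `X, X' ∈ U` and `ℓ X = ℓ X'` then `bch (-X') X ∈ U'` (`bch_sub_mem`, `br_mem_of_inv`). -/
theorem exists_section (hU : ∀ g ∈ M.C, ∀ X ∈ U, M.Ad g X ∈ U) (h0 : U ≤ M.W 0) (hne : U ≠ ⊥) :
    ∃ (U' : Submodule ℝ (V h)) (T : Submodule ℝ ℂ) (σ : T →ₗ[ℝ] V h), U' < U ∧ (∀ g ∈ M.C, ∀ X ∈ U', M.Ad g X ∈ U') ∧ (∀ z, σ z ∈ U) ∧
      (∀ X ∈ U, ∃ z, ∃ Y ∈ U', M.exp X = M.exp (σ z) * M.exp Y) ∧
      (∀ z z', ∃ Y ∈ U', M.exp (σ (z + z')) = M.exp (σ z) * M.exp (σ z') * M.exp Y) ∧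
      ∀ g ∈ M.C, ∃ θ : T ≃ₗᵢ[ℝ] T, ∀ z, ∃ Y ∈ U', M.exp (M.Ad g (σ z)) = M.exp (σ (θ z)) * M.exp Y := by
  obtain ⟨ℓ, χ, ⟨X₀, hX₀, hℓ₀⟩, hχ, hAd, hbr⟩ := M.exists_real_step hU h0 hne
  obtain ⟨s, hs⟩ := (ℓ.submoduleMap U).exists_rightInverse_of_surjective
    (LinearMap.range_eq_top.2 (ℓ.submoduleMap_surjective U))
  have hσ : ∀ z, ℓ (s z : V h) = z := fun z => congrArg Subtype.val (LinearMap.congr_fun hs z)
  have hb : ∀ A ∈ U, ∀ B ∈ U, M.br A B ∈ U ⊓ LinearMap.ker ℓ := fun A hA B hB =>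
    ⟨M.br_mem_of_inv hU (h0 hA) hB, hbr A (h0 hA) B hB⟩
  have k1 : ∀ A ∈ U, ∀ B ∈ U, M.bch A B ∈ U ∧ ℓ (M.bch A B) = ℓ A + ℓ B := fun A hA B hB => by
    obtain ⟨h1, h2⟩ := M.bch_sub_mem (hb A hA B hB) (fun Z hZ => hb A hA Z hZ.1) fun Z hZ => hb B hB Z hZ.1
    refine ⟨by simpa using U.add_mem (U.add_mem h1 hB) hA, ?_⟩
    have h3 : ℓ (M.bch A B - A - B) = 0 := h2
    rw [map_sub, map_sub] at h3
    linear_combination h3
  have k2 : ∀ X ∈ U, ∀ X' ∈ U, ℓ X = ℓ X' → ∃ Y ∈ U ⊓ LinearMap.ker ℓ, M.exp X = M.exp X' * M.exp Y := fun X hX X' hX' e => by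
    obtain ⟨h1, h2⟩ := k1 _ (U.neg_mem hX') _ hX
    refine ⟨M.bch (-X') X, ⟨h1, ?_⟩, by rw [← M.exp_bch, M.exp_neg, mul_inv_cancel_left]⟩
    change ℓ _ = 0
    rw [h2, map_neg, e, neg_add_cancel]
  refine ⟨U ⊓ LinearMap.ker ℓ, U.map ℓ, U.subtype ∘ₗ s, lt_of_le_of_ne inf_le_left fun e => hℓ₀ (e.ge hX₀).2,
    fun g hg X hX => ⟨hU g hg X hX.1, ?_⟩, fun z => (s z).2, fun X hX => ⟨⟨ℓ X, X, hX, rfl⟩, k2 _ hX _ (s _).2 (hσ ⟨ℓ X, X, hX, rfl⟩).symm⟩,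
    fun z z' => ?_, fun g hg => ?_⟩
  · have h1 : ℓ X = 0 := hX.2
    change ℓ _ = 0
    rw [hAd g hg X hX.1, h1, mul_zero]
  · obtain ⟨h1, h2⟩ := k1 _ (s z).2 _ (s z').2
    rw [M.exp_bch]
    exact k2 _ (s _).2 _ h1 (.trans (by rw [hσ, hσ, hσ]; rfl) h2.symm)
  · have hT : ∀ z ∈ U.map ℓ, LinearMap.mulLeft ℝ (χ g) z ∈ U.map ℓ := by
      rintro _ ⟨X, hX, rfl⟩
      exact ⟨_, hU g hg X hX, hAd g hg X hX⟩
    let L : U.map ℓ →ₗᵢ[ℝ] U.map ℓ := ⟨(LinearMap.mulLeft ℝ (χ g)).restrict hT, fun z => by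
      change ‖χ g * (z : ℂ)‖ = ‖(z : ℂ)‖
      rw [norm_mul, hχ g hg, one_mul]⟩
    refine ⟨L.toLinearIsometryEquiv rfl, fun z => k2 _ (hU g hg _ (s z).2) _ (s _).2 ?_⟩
    exact ((hAd g hg _ (s z).2).trans (by rw [hσ]; rfl)).trans (hσ (L z)).symm

theorem sc_conj (hU : ∀ g ∈ M.C, ∀ X ∈ U, M.Ad g X ∈ U) : ∀ g ∈ M.C, ∀ x ∈ M.exp '' U, g * x * g⁻¹ ∈ M.exp '' U := by
  rintro g hg _ ⟨X, hX, rfl⟩
  exact ⟨_, hU g hg X hX, (M.conj g X).symm⟩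

theorem sc_exp_mem (h0 : U ≤ M.W 0) {X : V h} (hX : X ∈ U) : M.exp X ∈ M.C := (M.gr.C_exp X).2 (h0 hX)

theorem sc_Fx_inv (hU : ∀ g ∈ M.C, ∀ X ∈ U, M.Ad g X ∈ U) {g : M.G} (hg : g ∈ M.C) {y : 𝓗} (hy : y ∈ Fx π (M.exp '' U)) :
    π g y ∈ Fx π (M.exp '' U) := by
  intro x hx
  have h1 := hy _ (M.sc_conj hU g⁻¹ (inv_mem hg) x hx)
  have h2 : x * g = g * (g⁻¹ * x * g⁻¹⁻¹) := by group
  calc π x (π g y) = π (x * g) y := by rw [map_mul]; rfl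
    _ = π g (π (g⁻¹ * x * g⁻¹⁻¹) y) := by rw [h2, map_mul]; rfl
    _ = π g y := by rw [h1]

/-- STEP.  `c' = P' ∘ c` (`P'` the projection to `H' = Fx π (exp '' U')`) is a cocycle on `C` (`Coc.proj`) vanishing on `exp '' U'` (`Coc.proj_eq_zero`), so
`c' (u * g) = c' g`.  `avg_identity` for `c'`, `e z = exp (σ z)`, `avg_unif` for the compact set `c' '' ballC 1` and `Q = Fx π (exp '' U)`; `P (P' v) = P v`;
`subC_of_approx` for the cocycle `c' - P ∘ c`. -/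
theorem subC_step (hc : Coc π M.C c) (hcont : Continuous c) (hπ : ∀ v, Continuous fun g => π g v) (hs : ∀ X ∈ M.W 0, Spd π c (M.exp X) 0)
    (hU : ∀ g ∈ M.C, ∀ X ∈ U, M.Ad g X ∈ U) (h0 : U ≤ M.W 0) (hne : U ≠ ⊥) : ∃ U' : Submodule ℝ (V h), U' < U ∧
      (∀ g ∈ M.C, ∀ X ∈ U', M.Ad g X ∈ U') ∧
      M.SubC fun g => (Fx π (M.exp '' U')).starProjection (c g) - (Fx π (M.exp '' U)).starProjection (c g) := by
  obtain ⟨U', T, σ, hlt, hU', hσ, h1, h2, h3⟩ := M.exists_section hU h0 hne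
  refine ⟨U', hlt, hU', ?_⟩
  let _ : MeasurableSpace T := borel T
  have : BorelSpace T := ⟨rfl⟩
  have h0' : U' ≤ M.W 0 := hlt.le.trans h0
  have hc' := hc.proj (M.sc_conj hU')
  have hcP := hc.proj (M.sc_conj hU)
  set H' := Fx π (M.exp '' U') with hH'
  set Q := Fx π (M.exp '' U) with hQd
  have hmul : ∀ (a b : M.G) (y : 𝓗), π (a * b) y = π a (π b y) := fun a b y => by rw [map_mul]; rfl
  have hfix : ∀ Y ∈ U', ∀ y ∈ H', π (M.exp Y) y = y := fun Y hY y hy => hy _ ⟨Y, hY, rfl⟩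
  have hz : ∀ Y ∈ U', H'.starProjection (c (M.exp Y)) = 0 := fun Y hY =>
    hc.proj_eq_zero (M.sc_conj hU') ⟨Y, hY, rfl⟩ (M.sc_exp_mem h0' hY) (hs Y (h0' hY))
  have hleft : ∀ Y ∈ U', ∀ g ∈ M.C, H'.starProjection (c (M.exp Y * g)) = H'.starProjection (c g) := fun Y hY g hg => by
    have : H'.starProjection (c (M.exp Y * g)) = H'.starProjection (c (M.exp Y)) + π (M.exp Y) (H'.starProjection (c g)) :=
      hc' _ (M.sc_exp_mem h0' hY) g hg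
    rw [this, hz Y hY, zero_add, hfix Y hY _ (H'.starProjection_apply_mem _)]
  have he : ∀ z, M.exp (σ z) ∈ M.C := fun z => M.sc_exp_mem h0 (hσ z)
  have hce : Continuous fun z : T => M.exp (σ z) := M.continuous_exp.comp σ.continuous_of_finiteDimensional
  have hcc : Continuous fun g => H'.starProjection (c g) := H'.starProjection.continuous.comp hcont
  have hπT : ∀ v, Continuous fun z : T => π (M.exp (σ z)) v := fun v => (hπ v).comp hce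
  have hQ : ∀ y, y ∈ Q ↔ y ∈ H' ∧ ∀ z, π (M.exp (σ z)) y = y := by
    intro y
    constructor
    · intro hy
      exact ⟨fun x hx => hy x (image_mono hlt.le hx), fun z => hy _ ⟨_, hσ z, rfl⟩⟩
    · rintro ⟨hy, hy'⟩ _ ⟨X, hX, rfl⟩
      obtain ⟨z, Y, hY, e⟩ := h1 X hX
      rw [e, hmul, hfix Y hY y hy, hy']
  have hle : Q ≤ H' := fun y hy => ((hQ y).1 hy).1
  refine M.subC_of_approx (hc'.sub hcP) fun ε hε => ?_
  obtain ⟨R, hR, hav⟩ := avg_unif (fun z : T => π (M.exp (σ z))) hπT H' (isClosed_Fx _ _)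
    (fun z y hy => M.sc_Fx_inv hU' (he z) hy)
    (fun z z' y hy => by
      obtain ⟨Y, hY, e⟩ := h2 z z'
      rw [e, hmul, hmul, hfix Y hY y hy]) Q hQ ((M.isCompact_ballC 1).image hcc)
    (by
      rintro _ ⟨g, -, rfl⟩
      exact H'.starProjection_apply_mem _) hε
  refine ⟨⨍ z in Metric.closedBall (0 : T) R, H'.starProjection (c (M.exp (σ z))), fun g hg => ?_⟩
  have hgC : g ∈ M.C := M.ballC_subset_C 1 hg
  obtain ⟨θ, hθ⟩ := h3 g hgC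
  have hid := avg_identity hc' (fun z : T => M.exp (σ z)) he (hcc.comp hce) hπT hgC θ (fun z => by
    obtain ⟨Y, hY, e⟩ := hθ z
    have e1 : g * M.exp (σ z) = M.exp (σ (θ z)) * (M.exp Y * g) := by
      rw [← mul_assoc, ← e, ← M.conj]
      group
    have e2 := hc' _ (he (θ z)) _ (mul_mem (M.sc_exp_mem h0' hY) hgC)
    have e3 := hc' _ (he (θ z)) _ hgC
    simp only at e2 e3 ⊢
    rw [e1, e2, e3, hleft Y hY g hgC]) hR
  have hPP : Q.starProjection (H'.starProjection (c g)) = Q.starProjection (c g) :=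
    DFunLike.congr_fun (Submodule.starProjection_comp_starProjection_of_le hle) (c g)
  have := hav _ ⟨g, hg, rfl⟩
  rw [← hid, hPP] at this
  rwa [sub_right_comm]

/-- strong induction on `finrank U`; for `U = ⊥` the projection is the identity -/
theorem subC_proj (hc : Coc π M.C c) (hcont : Continuous c) (hπ : ∀ v, Continuous fun g => π g v) (hs : ∀ X ∈ M.W 0, Spd π c (M.exp X) 0)
    (hU : ∀ g ∈ M.C, ∀ X ∈ U, M.Ad g X ∈ U) (h0 : U ≤ M.W 0) : M.SubC fun g => c g - (Fx π (M.exp '' U)).starProjection (c g) := by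
  induction hn : Module.finrank ℝ U using Nat.strong_induction_on generalizing U with
  | _ n ih =>
    by_cases hne : U = ⊥
    · subst hne
      intro ε hε
      refine ⟨0, fun n g hg => ?_⟩
      have : (Fx π (M.exp '' (⊥ : Submodule ℝ (V h)))).starProjection (c g) = c g := by
        rw [Submodule.starProjection_eq_self_iff]
        rintro _ ⟨X, hX, rfl⟩
        have hX' : X = 0 := by simpa using hX
        rw [hX', M.toCore.exp_zero, map_one]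
        rfl
      simp only [this, sub_self, norm_zero, add_zero]
      positivity
    · obtain ⟨U', hlt, hU', hsub⟩ := M.subC_step hc hcont hπ hs hU h0 hne
      have h1 := ih _ (hn ▸ Submodule.finrank_lt_finrank_of_lt hlt) hU' (hlt.le.trans h0) rfl
      simpa only [sub_add_sub_cancel] using h1.add hsub

/-- `subC_proj` for `U = W 0`, `Coc.proj_eq_zero` -/
theorem sub_W_zero (hc : Coc π M.C c) (hcont : Continuous c) (hπ : ∀ v, Continuous fun g => π g v) (hs : ∀ X ∈ M.W 0, Spd π c (M.exp X) 0)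
    {ε : ℝ} (hε : 0 < ε) : ∃ B : ℝ, ∀ n : ℕ, ∀ g ∈ M.ballC n, M.tv g = 0 → ‖c g‖ ≤ ε * n + B := by
  have hU : ∀ g ∈ M.C, ∀ X ∈ M.W 0, M.Ad g X ∈ M.W 0 := fun g hg X hX => M.gr.C_W g hg 0 X hX
  obtain ⟨B, hB⟩ := M.subC_proj hc hcont hπ hs hU le_rfl ε hε
  refine ⟨B, fun n g hg h0 => ?_⟩
  have hgC : g ∈ M.C := M.ballC_subset_C n hg
  obtain ⟨X, rfl⟩ := M.toCore.tv_eq_zero.1 h0
  have hX : X ∈ M.W 0 := (M.gr.C_exp X).1 hgC
  have := hB n _ hg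
  simp only [hc.proj_eq_zero (M.sc_conj hU) ⟨X, hX, rfl⟩ hgC (hs X hX), sub_zero] at this
  exact this

end Model

end Crest.Agent.R182
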