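import Crest.Agent.R182.H.Gen

/-! R182/H/Ult (owner helper36): the limit cocycle. -/

set_option autoImplicit false
set_option linter.unusedVariables false
set_option linter.unusedSectionVars false
open Set Filter Topology MeasureTheory Matrix Crest.GroupTheory
open scoped Pointwise commutatorElement ENNReal InnerProductSpace

noncomputable section
namespace Crest.Agent.R182

/-- type synonym carrying the GNS form -/
def ha_H (X : Type) : Type := X →₀ ℝ

instance ha_add (X : Type) : AddCommGroup (ha_H X) := inferInstanceAs (AddCommGroup (X →₀ ℝ))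
instance ha_mod (X : Type) : Module ℝ (ha_H X) := inferInstanceAs (Module ℝ (X →₀ ℝ))

/-- the identity, as a linear map to the synonym -/
def ha_to (X : Type) : (X →₀ ℝ) ≃ₗ[ℝ] ha_H X := LinearEquiv.refl ℝ (X →₀ ℝ)

/-- the bilinear form of a kernel -/
def ha_B {X : Type} (κ : X → X → ℝ) : (X →₀ ℝ) →ₗ[ℝ] (X →₀ ℝ) →ₗ[ℝ] ℝ :=
  Finsupp.linearCombination ℝ fun x => Finsupp.linearCombination ℝ (κ x)

theorem ha_B_apply {X : Type} (κ : X → X → ℝ) (u v : X →₀ ℝ) :
    ha_B κ u v = ∑ x ∈ u.support, ∑ y ∈ v.support, u x * v y * κ x y := by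
  simp only [ha_B, Finsupp.linearCombination_apply, Finsupp.sum, LinearMap.sum_apply, LinearMap.smul_apply, smul_eq_mul,
    Finset.mul_sum, mul_assoc]

theorem ha_B_single {X : Type} (κ : X → X → ℝ) (x y : X) : ha_B κ (Finsupp.single x 1) (Finsupp.single y 1) = κ x y := by
  simp only [ha_B, Finsupp.linearCombination_single, one_smul]

theorem ha_hilb {X : Type} (κ : X → X → ℝ) (hs : ∀ g g', κ g g' = κ g' g)
    (hp : ∀ (ι : Type) [Fintype ι] (a : ι → ℝ) (g : ι → X), 0 ≤ ∑ i, ∑ j, a i * a j * κ (g i) (g j)) :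
    ∃ (𝓗 : Type) (_ : NormedAddCommGroup 𝓗) (_ : InnerProductSpace ℝ 𝓗) (_ : CompleteSpace 𝓗) (c : X → 𝓗),
      DenseRange (Finsupp.linearCombination ℝ c) ∧ ∀ g g', ⟪c g, c g'⟫_ℝ = κ g g' := by
  let core : PreInnerProductSpace.Core ℝ (ha_H X) :=
    { inner := fun u v => ha_B κ ((ha_to X).symm u) ((ha_to X).symm v)
      conj_inner_symm := fun u v => by
        simp only [conj_trivial, ha_B_apply]
        rw [Finset.sum_comm]
        exact Finset.sum_congr rfl fun x _ => Finset.sum_congr rfl fun y _ => by rw [hs y x]; ring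
      re_inner_nonneg := fun u => by
        simp only [RCLike.re_to_real, ha_B_apply]
        have := hp ((ha_to X).symm u).support (fun i => (ha_to X).symm u i) (fun i => i)
        rw [← Finset.sum_coe_sort]
        simp only [← Finset.sum_coe_sort ((ha_to X).symm u).support]
        exact this
      add_left := fun u v w => by simp only [map_add, LinearMap.add_apply]
      smul_left := fun u v r => by simp only [map_smul, LinearMap.smul_apply, smul_eq_mul, conj_trivial] }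
  let _ : SeminormedAddCommGroup (ha_H X) := InnerProductSpace.Core.toSeminormedAddCommGroup (𝕜 := ℝ) (c := core)
  let _ : InnerProductSpace ℝ (ha_H X) := InnerProductSpace.ofCore core
  refine ⟨UniformSpace.Completion (ha_H X), inferInstance, inferInstance, inferInstance,
    fun x => ((ha_to X (Finsupp.single x 1) : ha_H X) : UniformSpace.Completion (ha_H X)), ?_, fun g g' => ?_⟩
  · have e : (Finsupp.linearCombination ℝ fun x => ((ha_to X (Finsupp.single x 1) : ha_H X) : UniformSpace.Completion (ha_H X))) =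
        (UniformSpace.Completion.toComplL (𝕜 := ℝ) (E := ha_H X)).toLinearMap ∘ₗ (ha_to X).toLinearMap := by
      refine Finsupp.lhom_ext' fun x => LinearMap.ext_ring ?_
      simp
    rw [e]
    exact UniformSpace.Completion.denseRange_coe.comp (ha_to X).surjective.denseRange (UniformSpace.Completion.continuous_coe _)
  · rw [UniformSpace.Completion.inner_coe]
    exact ha_B_single κ g g'

theorem ha_inner {X : Type} {𝓗 : Type} [NormedAddCommGroup 𝓗] [InnerProductSpace ℝ 𝓗] (c : X → 𝓗) (u : X →₀ ℝ) :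
    ⟪Finsupp.linearCombination ℝ c u, Finsupp.linearCombination ℝ c u⟫_ℝ =
      ∑ x ∈ u.support, ∑ y ∈ u.support, u x * u y * ⟪c x, c y⟫_ℝ := by
  simp only [Finsupp.linearCombination_apply, Finsupp.sum, sum_inner, inner_sum, real_inner_smul_left, real_inner_smul_right]
  exact Finset.sum_congr rfl fun x _ => Finset.sum_congr rfl fun y _ => by rw [real_inner_comm]; ring

theorem ha_ext {X : Type} {𝓗 : Type} [NormedAddCommGroup 𝓗] [InnerProductSpace ℝ 𝓗] [CompleteSpace 𝓗] {c d : X → 𝓗}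
    (hd : DenseRange (Finsupp.linearCombination ℝ c)) (h : ∀ g g', ⟪d g, d g'⟫_ℝ = ⟪c g, c g'⟫_ℝ) :
    ∃ V : 𝓗 →L[ℝ] 𝓗, (∀ g, V (c g) = d g) ∧ ∀ v, ‖V v‖ = ‖v‖ := by
  have hn : ∀ u, ‖Finsupp.linearCombination ℝ d u‖ = ‖Finsupp.linearCombination ℝ c u‖ := fun u => by
    rw [norm_eq_sqrt_real_inner, norm_eq_sqrt_real_inner, ha_inner, ha_inner]
    simp only [h]
  have he : ∀ u, (Finsupp.linearCombination ℝ d).extendOfNorm (Finsupp.linearCombination ℝ c) (Finsupp.linearCombination ℝ c u) =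
      Finsupp.linearCombination ℝ d u := LinearMap.extendOfNorm_eq hd ⟨1, fun u => by rw [hn, one_mul]⟩
  refine ⟨(Finsupp.linearCombination ℝ d).extendOfNorm (Finsupp.linearCombination ℝ c), fun g => ?_, fun v => ?_⟩
  · simpa using he (Finsupp.single g 1)
  · refine hd.induction_on v (isClosed_eq (by fun_prop) (by fun_prop)) fun u => ?_
    rw [he, hn]

theorem ha_uniq {X : Type} {𝓗 : Type} [NormedAddCommGroup 𝓗] [InnerProductSpace ℝ 𝓗] {c : X → 𝓗}
    (hd : DenseRange (Finsupp.linearCombination ℝ c)) {V W : 𝓗 →L[ℝ] 𝓗} (h : ∀ g, V (c g) = W (c g)) : V = W := by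
  refine ContinuousLinearMap.ext fun v => hd.induction_on v (isClosed_eq V.continuous W.continuous) fun u => ?_
  simp only [Finsupp.linearCombination_apply, Finsupp.sum, map_sum, map_smul, h]

/-- GNS.  On `G →₀ ℝ` the form `⟪u, v⟫ = ∑ u g * v g' * κ g g'` is a `PreInnerProductSpace.Core` (use a type synonym); `𝓗` is the completion,
`c g = [single g 1]`, `V x` the extension of the linear isometry `single g 1 ↦ single (x * g) 1 - single x 1` (`hi`), `V x ∘ V y = V (x * y)`,
`κ 1 1 = 0` (`hi 1 1 1`), so `c 1 = 0` and `V 1 = id`; `π x` is `V x` with inverse `V x⁻¹`.  `‖c (g * x) - c g‖ = ‖c x‖ = √(κ x x)` gives continuity;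
`{v | Continuous (π · v)}` is a closed subspace containing the `c g'` (`π g (c g') = c (g * g') - c g`). -/
theorem exists_gns {G : Type} [Group G] [TopologicalSpace G] [IsTopologicalGroup G] (κ : G → G → ℝ) (hs : ∀ g g', κ g g' = κ g' g)
    (hp : ∀ (ι : Type) [Fintype ι] (a : ι → ℝ) (g : ι → G), 0 ≤ ∑ i, ∑ j, a i * a j * κ (g i) (g j))
    (hi : ∀ x g g', κ (x * g) (x * g') - κ (x * g) x - κ x (x * g') + κ x x = κ g g') (hc : Tendsto (fun g => κ g g) (𝓝 1) (𝓝 0)) :
    ∃ (𝓗 : Type) (_ : NormedAddCommGroup 𝓗) (_ : InnerProductSpace ℝ 𝓗) (_ : CompleteSpace 𝓗) (π : G →* (𝓗 ≃ₗᵢ[ℝ] 𝓗)) (c : G → 𝓗),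
      Coc π ⊤ c ∧ Continuous c ∧ (∀ v, Continuous fun g => π g v) ∧ ∀ g g', ⟪c g, c g'⟫_ℝ = κ g g' := by
  obtain ⟨𝓗, i1, i2, i3, c, hd, hk⟩ := ha_hilb κ hs hp
  have hV : ∀ x : G, ∃ V : 𝓗 →L[ℝ] 𝓗, (∀ g, V (c g) = c (x * g) - c x) ∧ ∀ v, ‖V v‖ = ‖v‖ := fun x =>
    ha_ext hd fun g g' => by
      rw [inner_sub_left, inner_sub_right, inner_sub_right, hk, hk, hk, hk, hk, ← hi x g g']
      ring
  choose V hV hn using hV
  have c1 : c 1 = 0 := by
    have := hi 1 1 1
    rw [mul_one] at this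
    rw [← inner_self_eq_zero (𝕜 := ℝ), hk]
    linarith
  have V1 : V 1 = ContinuousLinearMap.id ℝ 𝓗 := ha_uniq hd fun g => by
    rw [hV, one_mul, c1, sub_zero, ContinuousLinearMap.id_apply]
  have Vm : ∀ x y, V (x * y) = (V x).comp (V y) := fun x y => ha_uniq hd fun g => by
    rw [ContinuousLinearMap.comp_apply, hV, hV, map_sub, hV, hV, mul_assoc]
    abel
  have Vm' : ∀ x y v, V x (V y v) = V (x * y) v := fun x y v => by rw [Vm, ContinuousLinearMap.comp_apply]
  let P : G → (𝓗 ≃ₗᵢ[ℝ] 𝓗) := fun x =>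
    { toLinearMap := (V x).toLinearMap
      invFun := V x⁻¹
      left_inv := fun v => by
        show V x⁻¹ (V x v) = v
        rw [Vm', inv_mul_cancel, V1, ContinuousLinearMap.id_apply]
      right_inv := fun v => by
        show V x (V x⁻¹ v) = v
        rw [Vm', mul_inv_cancel, V1, ContinuousLinearMap.id_apply]
      norm_map' := hn x }
  have hP : ∀ x v, P x v = V x v := fun x v => rfl
  let π : G →* (𝓗 ≃ₗᵢ[ℝ] 𝓗) := MonoidHom.mk' P fun x y => LinearIsometryEquiv.ext fun v => by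
    rw [LinearIsometryEquiv.coe_mul, Function.comp_apply, hP, hP, hP, Vm']
  have hπ : ∀ x v, π x v = V x v := fun x v => rfl
  have cc : Continuous c := by
    refine continuous_iff_continuousAt.2 fun g => ?_
    rw [ContinuousAt, tendsto_iff_norm_sub_tendsto_zero]
    have h1 : Tendsto (fun x => g⁻¹ * x) (𝓝 g) (𝓝 1) := by
      have := (continuous_const_mul g⁻¹).tendsto g
      rwa [inv_mul_cancel] at this
    have h2 := (hc.comp h1).sqrt
    rw [Real.sqrt_zero] at h2
    refine h2.congr fun x => ?_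
    have := hV g (g⁻¹ * x)
    rw [mul_inv_cancel_left] at this
    rw [← this, hn, norm_eq_sqrt_real_inner, hk]
    rfl
  refine ⟨𝓗, i1, i2, i3, π, c, fun g _ g' _ => by rw [hπ, hV]; abel, cc, fun v => ?_, hk⟩
  simp only [hπ]
  refine hd.induction_on v ?_ fun u => ?_
  · refine IsSeqClosed.isClosed fun w v hw hv => ?_
    refine TendstoUniformly.continuous (F := fun n g => V g (w n)) (p := atTop) ?_ (Frequently.of_forall hw)
    rw [Metric.tendstoUniformly_iff]
    intro ε hε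
    filter_upwards [(Metric.tendsto_nhds.1 hv) ε hε] with n hn' g
    rwa [dist_eq_norm, ← map_sub, hn, ← dist_eq_norm, dist_comm]
  · simp only [Finsupp.linearCombination_apply, Finsupp.sum, map_sum, map_smul, hV]
    exact continuous_finsetSum _ fun x _ => ((cc.comp (continuous_mul_const x)).sub cc).const_smul _

theorem hb_one {G : Type*} [Mul G] [MeasurableSpace G] [MeasurableMul G] {μ : Measure G} [IsProbabilityMeasure μ] {S : Set G}
    {η : ℝ} (hη : 0 ≤ η) (hμ : Inv μ S η) {s : G} (hs : s ∈ S) {f : G → ℝ} (hf : Measurable f) {c : ℝ} (hc : 0 ≤ c)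
    (h0 : ∀ p, 0 ≤ f p) (h1 : ∀ p, f p ≤ c) : ∫ p, f (p * s) ∂μ ≤ ∫ p, f p ∂μ + c * η := by
  have hf' : Measurable fun p => f (p * s) := hf.comp (measurable_mul_const s)
  have i1 : Integrable f μ := Integrable.of_bound hf.aestronglyMeasurable c
    (ae_of_all _ fun p => by rw [Real.norm_eq_abs, abs_of_nonneg (h0 p)]; exact h1 p)
  have i2 : Integrable (fun p => f (p * s)) μ := Integrable.of_bound hf'.aestronglyMeasurable c
    (ae_of_all _ fun p => by rw [Real.norm_eq_abs, abs_of_nonneg (h0 _)]; exact h1 _)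
  have n1 : 0 ≤ ∫ p, f p ∂μ := integral_nonneg h0
  rw [← ENNReal.ofReal_le_ofReal_iff (by positivity), ENNReal.ofReal_add n1 (by positivity),
    ofReal_integral_eq_lintegral_ofReal i2 (ae_of_all _ fun p => h0 _), ofReal_integral_eq_lintegral_ofReal i1 (ae_of_all _ h0),
    lintegral_eq_lintegral_meas_le μ (ae_of_all _ fun p => h0 _) hf'.aemeasurable,
    lintegral_eq_lintegral_meas_le μ (ae_of_all _ h0) hf.aemeasurable]
  calc ∫⁻ t in Ioi 0, μ {a | t ≤ f (a * s)}
      ≤ ∫⁻ t in Ioi 0, (μ {a | t ≤ f a} + (Iic c).indicator (fun _ => ENNReal.ofReal η) t) := by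
        refine lintegral_mono fun t => ?_
        by_cases ht : t ≤ c
        · rw [indicator_of_mem (show t ∈ Iic c from ht)]
          exact hμ s hs {a | t ≤ f a} (measurableSet_le measurable_const hf)
        · have : {a | t ≤ f (a * s)} = ∅ := eq_empty_of_forall_notMem fun a ha => ht (le_trans ha (h1 _))
          simp only [this, measure_empty]
          exact zero_le
    _ = _ := by
        rw [lintegral_add_right _ (measurable_const.indicator measurableSet_Iic), lintegral_indicator measurableSet_Iic,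
          setLIntegral_const, Measure.restrict_apply measurableSet_Iic, Iic_inter_Ioi, Real.volume_Ioc, sub_zero,
          ← ENNReal.ofReal_mul hη, mul_comm η]

/-- Layer cake: for `0 ≤ f ≤ b`, `∫ f (p * s) = ∫₀ᵇ μ {t < f (· * s)} ≤ ∫ f + b η`; apply it to `b + f` and `b - f`. -/
theorem Inv.abs_integral_sub {G : Type*} [Mul G] [MeasurableSpace G] [MeasurableMul G] {μ : Measure G} [IsProbabilityMeasure μ] {S : Set G}
    {η : ℝ} (hη : 0 ≤ η) (hμ : Inv μ S η) {s : G} (hs : s ∈ S) {f : G → ℝ} (hf : Measurable f) {b : ℝ} (hb : ∀ p, |f p| ≤ b) :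
    |∫ p, f (p * s) ∂μ - ∫ p, f p ∂μ| ≤ 2 * b * η := by
  have hf' : Measurable fun p => f (p * s) := hf.comp (measurable_mul_const s)
  have i1 : Integrable f μ := Integrable.of_bound hf.aestronglyMeasurable b (ae_of_all _ hb)
  have i2 : Integrable (fun p => f (p * s)) μ := Integrable.of_bound hf'.aestronglyMeasurable b (ae_of_all _ fun p => hb _)
  have hb0 : 0 ≤ b := (abs_nonneg _).trans (hb s)
  have a1 := hb_one hη hμ hs (f := fun p => b + f p) (measurable_const.add hf) (c := 2 * b) (by positivity)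
    (fun p => by linarith [(abs_le.1 (hb p)).1]) (fun p => by linarith [(abs_le.1 (hb p)).2])
  have a2 := hb_one hη hμ hs (f := fun p => b - f p) (measurable_const.sub hf) (c := 2 * b) (by positivity)
    (fun p => by linarith [(abs_le.1 (hb p)).2]) (fun p => by linarith [(abs_le.1 (hb p)).1])
  rw [integral_add (integrable_const b) i2, integral_add (integrable_const b) i1] at a1
  rw [integral_sub (integrable_const b) i2, integral_sub (integrable_const b) i1] at a2
  exact abs_le.2 ⟨by linarith, by linarith⟩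

theorem hb_dot {k : ℕ} {u v : Fin k → ℝ} {A B : ℝ} (hu : ‖u‖ ≤ A) (hv : ‖v‖ ≤ B) : |u ⬝ᵥ v| ≤ k * (A * B) := by
  calc |u ⬝ᵥ v| ≤ ∑ i, |u i * v i| := Finset.abs_sum_le_sum_abs _ _
    _ ≤ ∑ _i : Fin k, A * B := Finset.sum_le_sum fun i _ => by
        rw [abs_mul]
        exact mul_le_mul ((norm_le_pi_norm u i).trans hu) ((norm_le_pi_norm v i).trans hv) (abs_nonneg _)
          ((norm_nonneg _).trans hu)
    _ = _ := by simp

theorem hb_meas {X : Type*} [MeasurableSpace X] {k : ℕ} {u v : X → Fin k → ℝ} (hu : Measurable u) (hv : Measurable v) :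
    Measurable fun p => u p ⬝ᵥ v p :=
  Finset.measurable_sum _ fun i _ => ((measurable_pi_apply i).comp hu).mul ((measurable_pi_apply i).comp hv)

theorem hb_lim (𝒰 : Ultrafilter ℕ) {u : ℕ → ℝ} {B : ℝ} (h : ∀ m, |u m| ≤ B) : ∃ a, Tendsto u 𝒰 (𝓝 a) := by
  obtain ⟨a, -, ha⟩ := (isCompact_Icc (a := -B) (b := B)).ultrafilter_le_nhds (𝒰.map u)
    (le_principal_iff.2 (mem_map.2 (univ_mem' fun m => abs_le.1 (h m))))
  exact ⟨a, ha⟩

theorem hb_int {X : Type*} [MeasurableSpace X] (μ : Measure X) [IsProbabilityMeasure μ] {f : X → ℝ} {B : ℝ} (h : ∀ p, |f p| ≤ B) :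
    |∫ p, f p ∂μ| ≤ B := by
  have := norm_integral_le_of_norm_le_const (μ := μ) (f := f) (C := B) (ae_of_all _ h)
  simpa using this

theorem hb_four {X : Type*} [MeasurableSpace X] {μ : Measure X} {f₁ f₂ f₃ f₄ : X → ℝ} (h1 : Integrable f₁ μ) (h2 : Integrable f₂ μ)
    (h3 : Integrable f₃ μ) (h4 : Integrable f₄ μ) :
    ∫ p, (f₁ p - f₂ p - f₃ p + f₄ p) ∂μ = ∫ p, f₁ p ∂μ - ∫ p, f₂ p ∂μ - ∫ p, f₃ p ∂μ + ∫ p, f₄ p ∂μ := by
  have a1 := integral_sub h1 h2
  have a2 := integral_sub (h1.sub h2) h3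
  have a3 := integral_add ((h1.sub h2).sub h3) h4
  simp only [Pi.sub_apply] at a2 a3
  rw [a3, a2, a1]

/-- `κ g g' = lim_𝒰 ∫ (F m (p g) - F m p) ⬝ᵥ (F m (p g') - F m p) dμ m` (bounded sequences converge along ultrafilters: `IsCompact.ultrafilter_le_nhds`);
`hi` of `exists_gns` is `Inv.abs_integral_sub` because the left side is the limit of the integrals of the integrand at `p * x`. -/
theorem exists_ult {G : Type} [Group G] [TopologicalSpace G] [IsTopologicalGroup G] [MeasurableSpace G] [MeasurableMul G] {k : ℕ}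
    (𝒰 : Ultrafilter ℕ) (μ : ℕ → Measure G) (hμ : ∀ m, IsProbabilityMeasure (μ m)) (F : ℕ → G → Fin k → ℝ) (hF : ∀ m, Measurable (F m))
    (hb : ∀ g, ∃ B : ℝ, ∀ m p, ‖F m (p * g) - F m p‖ ≤ B)
    (hc : ∀ ε : ℝ, 0 < ε → ∀ᶠ g in 𝓝 (1 : G), ∀ m p, ‖F m (p * g) - F m p‖ ≤ ε)
    (hi : ∀ (g : G) (η : ℝ), 0 < η → ∀ᶠ m in (𝒰 : Filter ℕ), Inv (μ m) {g} η) :
    ∃ (𝓗 : Type) (_ : NormedAddCommGroup 𝓗) (_ : InnerProductSpace ℝ 𝓗) (_ : CompleteSpace 𝓗) (π : G →* (𝓗 ≃ₗᵢ[ℝ] 𝓗)) (c : G → 𝓗),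
      Coc π ⊤ c ∧ Continuous c ∧ (∀ v, Continuous fun g => π g v) ∧ ∀ (ι : Type) [Fintype ι] (a : ι → ℝ) (g : ι → G),
        Tendsto (fun m => ∫ p, (∑ l, a l • (F m (p * g l) - F m p)) ⬝ᵥ (∑ l, a l • (F m (p * g l) - F m p)) ∂μ m) 𝒰
          (𝓝 (‖∑ l, a l • c (g l)‖ ^ 2)) := by
  choose B hB using hb
  have mΔ : ∀ m g, Measurable fun p => F m (p * g) - F m p := fun m g => ((hF m).comp (measurable_mul_const g)).sub (hF m)
  have mΦ : ∀ m g g', Measurable fun p => (F m (p * g) - F m p) ⬝ᵥ (F m (p * g') - F m p) := fun m g g' =>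
    hb_meas (mΔ m g) (mΔ m g')
  have bΦ : ∀ m g g' p, |(F m (p * g) - F m p) ⬝ᵥ (F m (p * g') - F m p)| ≤ k * (B g * B g') := fun m g g' p =>
    hb_dot (hB g m p) (hB g' m p)
  have iΦ : ∀ m g g', Integrable (fun p => (F m (p * g) - F m p) ⬝ᵥ (F m (p * g') - F m p)) (μ m) := fun m g g' =>
    Integrable.of_bound (mΦ m g g').aestronglyMeasurable _ (ae_of_all _ (bΦ m g g'))
  have hκ : ∀ g g', ∃ a, Tendsto (fun m => ∫ p, (F m (p * g) - F m p) ⬝ᵥ (F m (p * g') - F m p) ∂μ m) 𝒰 (𝓝 a) := fun g g' =>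
    hb_lim 𝒰 fun m => hb_int (μ m) (bΦ m g g')
  choose κ hκ using hκ
  have key : ∀ (ι : Type) [Fintype ι] (a : ι → ℝ) (g : ι → G),
      Tendsto (fun m => ∫ p, (∑ l, a l • (F m (p * g l) - F m p)) ⬝ᵥ (∑ l, a l • (F m (p * g l) - F m p)) ∂μ m) 𝒰
        (𝓝 (∑ i, ∑ j, a i * a j * κ (g i) (g j))) := by
    intro ι _ a g
    refine (tendsto_finsetSum _ fun i _ => tendsto_finsetSum _ fun j _ => (hκ (g i) (g j)).const_mul (a i * a j)).congr
      fun m => ?_
    simp only [← integral_const_mul]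
    rw [← Finset.sum_congr rfl fun i _ => integral_finsetSum _ fun j _ => (iΦ m (g i) (g j)).const_mul (a i * a j),
      ← integral_finsetSum _ fun i _ => integrable_finsetSum _ fun j _ => (iΦ m (g i) (g j)).const_mul (a i * a j)]
    refine integral_congr_ae (ae_of_all _ fun p => ?_)
    simp only [sum_dotProduct, dotProduct_sum, smul_dotProduct, dotProduct_smul, smul_eq_mul, Finset.mul_sum]
    rw [Finset.sum_comm]
    exact Finset.sum_congr rfl fun i _ => Finset.sum_congr rfl fun j _ => by ring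
  obtain ⟨𝓗, i1, i2, i3, π, c, h1, h2, h3, h4⟩ := exists_gns κ
    (fun g g' => tendsto_nhds_unique (hκ g g') ((hκ g' g).congr fun m => by simp only [dotProduct_comm (F m (_ * g') - _)]))
    (fun ι _ a g => ge_of_tendsto' (key ι a g) fun m => integral_nonneg fun p =>
      Finset.sum_nonneg fun i _ => mul_self_nonneg _)
    (fun x g g' => by
      have t1 := (((hκ (x * g) (x * g')).sub (hκ (x * g) x)).sub (hκ x (x * g'))).add (hκ x x)
      have t2 : Tendsto (fun m => ∫ p, (F m (p * x * g) - F m (p * x)) ⬝ᵥ (F m (p * x * g') - F m (p * x)) ∂μ m -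
          ∫ p, (F m (p * g) - F m p) ⬝ᵥ (F m (p * g') - F m p) ∂μ m) 𝒰 (𝓝 0) := by
        refine Metric.tendsto_nhds.2 fun ε hε => ?_
        have hb0 : 0 ≤ 2 * (k * (B g * B g')) := mul_nonneg zero_le_two ((abs_nonneg _).trans (bΦ 0 g g' 1))
        filter_upwards [hi x (ε / (2 * (k * (B g * B g')) + 1)) (by positivity)] with m hm
        have := hμ m
        rw [Real.dist_eq, sub_zero]
        refine (Inv.abs_integral_sub (by positivity) hm (mem_singleton x) (mΦ m g g') (bΦ m g g')).trans_lt ?_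
        rw [← mul_div_assoc, div_lt_iff₀ (by positivity)]
        linarith
      have t3 := t2.add (hκ g g')
      rw [zero_add] at t3
      refine tendsto_nhds_unique t1 (t3.congr fun m => ?_)
      rw [sub_add_cancel, ← hb_four (iΦ m _ _) (iΦ m _ _) (iΦ m _ _) (iΦ m _ _)]
      refine integral_congr_ae (ae_of_all _ fun p => ?_)
      simp only [mul_assoc, sub_dotProduct, dotProduct_sub]
      ring)
    (by
      refine Metric.tendsto_nhds.2 fun ε hε => ?_
      have hδ : 0 < min 1 (ε / (k + 1)) := by positivity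
      filter_upwards [hc _ hδ] with g hg
      rw [Real.dist_eq, sub_zero]
      have h5 : |κ g g| ≤ k * (min 1 (ε / (k + 1)) * min 1 (ε / (k + 1))) :=
        le_of_tendsto' (hκ g g).abs fun m => hb_int (μ m) fun p => hb_dot (hg m p) (hg m p)
      refine h5.trans_lt ?_
      have h6 : min 1 (ε / (k + 1)) * min 1 (ε / (k + 1)) ≤ ε / (k + 1) :=
        (mul_le_of_le_one_left hδ.le (min_le_left _ _)).trans (min_le_right _ _)
      refine (mul_le_mul_of_nonneg_left h6 (Nat.cast_nonneg k)).trans_lt ?_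
      rw [← mul_div_assoc, div_lt_iff₀ (by positivity)]
      linarith)
  refine ⟨𝓗, i1, i2, i3, π, c, h1, h2, h3, fun ι _ a g => ?_⟩
  convert key ι a g using 2
  rw [← real_inner_self_eq_norm_sq]
  simp only [sum_inner, inner_sum, real_inner_smul_left, real_inner_smul_right, h4]
  rw [Finset.sum_comm]
  exact Finset.sum_congr rfl fun i _ => Finset.sum_congr rfl fun j _ => by ring

namespace Model
variable {h k : ℕ} (M : Model h k)

theorem hc_int {B : ℝ} {a : M.G → Fin k → ℝ} (ha : Measurable a) (hb : ∀ p g, ‖a (p * g) - a p‖ ≤ B * M.len g + B)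
    {ψ : M.G → ℝ} (hψ : Continuous ψ) {r : ℕ} (hr : ∀ y, ¬ M.len y ≤ r → ψ y = 0) (p : M.G) :
    Integrable (fun y => ψ y • a (p * y)) ∧ ‖(∫ y, ψ y • a (p * y)) - (∫ y, ψ y) • a p‖ ≤ (|B| * r + |B|) * ∫ y, |ψ y| := by
  have hi : Integrable ψ := hψ.integrable_of_hasCompactSupport (HasCompactSupport.intro (M.isCompact_ball r) hr)
  have hle : ∀ y, ‖ψ y • (a (p * y) - a p)‖ ≤ (|B| * r + |B|) * |ψ y| := by
    intro y
    by_cases hy : M.len y ≤ r
    · rw [norm_smul, Real.norm_eq_abs, mul_comm]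
      refine mul_le_mul_of_nonneg_right ((hb p y).trans ?_) (abs_nonneg _)
      have h1 : (M.len y : ℝ) ≤ r := by exact_mod_cast hy
      have h2 : B * M.len y ≤ |B| * r :=
        (mul_le_mul_of_nonneg_right (le_abs_self B) (Nat.cast_nonneg _)).trans (mul_le_mul_of_nonneg_left h1 (abs_nonneg _))
      linarith [le_abs_self B]
    · simp [hr y hy]
  have hm : Measurable fun y => a (p * y) - a p := (ha.comp (measurable_const_mul p)).sub measurable_const
  have h1 : Integrable (fun y => ψ y • (a (p * y) - a p)) :=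
    Integrable.mono' (hi.abs.const_mul (|B| * r + |B|)) (hψ.measurable.smul hm).aestronglyMeasurable (Eventually.of_forall hle)
  have h2 : Integrable (fun y => ψ y • a p) := hi.smul_const _
  have e : (fun y => ψ y • a (p * y)) = fun y => ψ y • (a (p * y) - a p) + ψ y • a p := by
    funext y; rw [smul_sub, sub_add_cancel]
  refine ⟨by rw [e]; exact h1.add h2, ?_⟩
  rw [e, integral_add h1 h2, integral_smul_const, add_sub_cancel_right, ← integral_const_mul]
  exact norm_integral_le_of_norm_le (hi.abs.const_mul _) (Eventually.of_forall hle)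

/-- Smoothing.  `F p = ⨍ y in S, a (p * y)` with `S = ball 1` (compact, positive volume).  `F (p * g) - F p = (vol S)⁻¹ (∫_{g S} - ∫_S) (a (p y) - a p)`,
the integrand is bounded on `ball 2` and `vol (g S \ S) + vol (S \ g S) → 0` as `g → 1` (`tendsto_measure_smul_sdiff_isCompact_isClosed`, also for `g⁻¹`;
`exp '' closedBall 0 1 * {tv = 0}`: `ball 1` is a neighbourhood of `1`).  `F` is continuous, hence measurable. -/
theorem exists_smooth (B : ℝ) : ∃ (C : ℝ) (O : ℝ → Set M.G), 0 ≤ C ∧ (∀ ε, 0 < ε → O ε ∈ 𝓝 (1 : M.G)) ∧ ∀ a : M.G → Fin k → ℝ, Measurable a →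
    (∀ p g, ‖a (p * g) - a p‖ ≤ B * M.len g + B) → ∃ F : M.G → Fin k → ℝ, Measurable F ∧ (∀ p, ‖F p - a p‖ ≤ C) ∧
      ∀ ε, 0 < ε → ∀ p, ∀ g ∈ O ε, ‖F (p * g) - F p‖ ≤ ε := by
  obtain ⟨φ₀, h0c, h0n, h01⟩ := exists_continuous_nonneg_pos (1 : M.G)
  have hpos : 0 < ∫ y, φ₀ y := φ₀.continuous.integral_pos_of_hasCompactSupport_nonneg_nonzero h0c h0n h01
  obtain ⟨n, hn⟩ := M.len_bdd h0c
  obtain ⟨φ, hc, hr, h1⟩ : ∃ φ : M.G → ℝ, Continuous φ ∧ (∀ y, ¬ M.len y ≤ n → φ y = 0) ∧ ∫ y, φ y = 1 := by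
    refine ⟨fun y => (∫ y, φ₀ y)⁻¹ * φ₀ y, continuous_const.mul φ₀.continuous, fun y hy => ?_, ?_⟩
    · have : φ₀ y = 0 := image_eq_zero_of_notMem_tsupport fun h => hy (hn y h)
      simp [this]
    · rw [integral_const_mul, inv_mul_cancel₀ hpos.ne']
  obtain ⟨N, hN, hN1⟩ := exists_compact_mem_nhds (1 : M.G)
  obtain ⟨m, hm⟩ := M.len_bdd hN
  have hr1 : ∀ g ∈ N, ∀ y, ¬ M.len y ≤ m + n → φ (g⁻¹ * y) = 0 := by
    intro g hg y hy
    refine hr _ fun h => hy ?_
    have := M.len_mul g (g⁻¹ * y)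
    rw [mul_inv_cancel_left] at this
    have := hm g hg
    omega
  have hr2 : ∀ y, ¬ M.len y ≤ m + n → φ y = 0 := fun y hy => hr y fun h => hy (by omega)
  have hr3 : ∀ g ∈ N, ∀ y, ¬ M.len y ≤ m + n → φ (g⁻¹ * y) - φ y = 0 := fun g hg y hy => by
    rw [hr1 g hg y hy, hr2 y hy, sub_self]
  have hcont : ContinuousOn (fun g => ∫ y, |φ (g⁻¹ * y) - φ y|) N := by
    refine continuousOn_integral_of_compact_support (M.isCompact_ball (m + n)) (Continuous.continuousOn ?_) fun g y hg hy => ?_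
    · exact ((hc.comp (continuous_fst.inv.mul continuous_snd)).sub (hc.comp continuous_snd)).abs
    · rw [hr3 g hg y hy, abs_zero]
  have hD : 0 ≤ |B| * ((m + n : ℕ) : ℝ) + |B| := by positivity
  have ht : Tendsto (fun g => (|B| * ((m + n : ℕ) : ℝ) + |B|) * ∫ y, |φ (g⁻¹ * y) - φ y|) (𝓝 1) (𝓝 0) := by
    have := ((hcont.continuousAt hN1).tendsto).const_mul (|B| * ((m + n : ℕ) : ℝ) + |B|)
    simpa using this
  refine ⟨(|B| * n + |B|) * ∫ y, |φ y|, fun ε => N ∩ {g | (|B| * ((m + n : ℕ) : ℝ) + |B|) * ∫ y, |φ (g⁻¹ * y) - φ y| ≤ ε},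
    mul_nonneg (by positivity) (integral_nonneg fun y => abs_nonneg _),
    fun ε hε => inter_mem hN1 (ht.eventually (ge_mem_nhds hε)), fun a ha hb => ⟨fun p => ∫ y, φ y • a (p * y), ?_, fun p => ?_, ?_⟩⟩
  · have : Measurable fun z : M.G × M.G => φ z.2 • a (z.1 * z.2) :=
      (hc.measurable.comp measurable_snd).smul (ha.comp (measurable_fst.mul measurable_snd))
    exact (this.stronglyMeasurable.integral_prod_right' (ν := volume)).measurable
  · have := (M.hc_int ha hb hc hr p).2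
    rwa [h1, one_smul] at this
  · rintro ε hε p g ⟨hg, hg'⟩
    have hcg : Continuous fun y => φ (g⁻¹ * y) := hc.comp (continuous_const.mul continuous_id)
    have i1 := (M.hc_int ha hb hcg (hr1 g hg) p).1
    have i2 := (M.hc_int ha hb hc hr p).1
    have i3 := (M.hc_int ha hb (ψ := fun y => φ (g⁻¹ * y) - φ y) (hcg.sub hc) (hr3 g hg) p).2
    have j1 : Integrable fun y => φ (g⁻¹ * y) :=
      hcg.integrable_of_hasCompactSupport (HasCompactSupport.intro (M.isCompact_ball (m + n)) (hr1 g hg))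
    have j2 : Integrable φ := hc.integrable_of_hasCompactSupport (HasCompactSupport.intro (M.isCompact_ball n) hr)
    have e1 : ∫ y, φ y • a (p * g * y) = ∫ y, φ (g⁻¹ * y) • a (p * y) := by
      rw [← integral_mul_left_eq_self (fun y => φ (g⁻¹ * y) • a (p * y)) g]
      simp only [inv_mul_cancel_left, mul_assoc]
    have e2 : ∫ y, (φ (g⁻¹ * y) - φ y) = 0 := by
      rw [integral_sub j1 j2, integral_mul_left_eq_self φ g⁻¹, sub_self]
    simp only [e2, zero_smul, sub_zero, sub_smul] at i3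
    rw [integral_sub i1 i2] at i3
    show ‖(∫ y, φ y • a (p * g * y)) - ∫ y, φ y • a (p * y)‖ ≤ ε
    rw [e1]
    exact i3.trans hg'

omit M in
theorem ud_sq_le (v : Fin k → ℝ) : ‖v‖ ^ 2 ≤ v ⬝ᵥ v := by
  have h0 : 0 ≤ v ⬝ᵥ v := Finset.sum_nonneg fun i _ => mul_self_nonneg (v i)
  rw [← Real.le_sqrt (norm_nonneg _) h0, pi_norm_le_iff_of_nonneg (Real.sqrt_nonneg _)]
  intro i
  refine Real.abs_le_sqrt ?_
  rw [sq]
  exact Finset.single_le_sum (f := fun i => v i * v i) (fun i _ => mul_self_nonneg (v i)) (Finset.mem_univ i)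

omit M in
theorem ud_dot_le (v : Fin k → ℝ) {B : ℝ} (hv : ‖v‖ ≤ B) : v ⬝ᵥ v ≤ k * B ^ 2 := by
  refine (Finset.sum_le_card_nsmul _ _ (B ^ 2) fun i _ => ?_).trans_eq (by simp)
  have h1 := (norm_le_pi_norm v i).trans hv
  rw [← sq, ← sq_abs]
  exact pow_le_pow_left₀ (abs_nonneg _) h1 2

theorem ud_chi : Measurable M.chi :=
  (continuous_pi fun i => (continuous_of_discreteTopology (f := fun z : ℤ => (z : ℝ))).comp
    ((continuous_apply i).comp M.continuous_tv)).measurable

theorem ud_cc {K : ℝ} {φ : M.G → M.G} (hφ : M.Lip K φ) (p g : M.G) :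
    ‖M.chi (φ (p * g)) - M.chi (φ p)‖ ≤ K * M.len g + K := by
  have h1 := hφ p (p * g)
  rw [inv_mul_cancel_left] at h1
  refine le_trans ((pi_norm_le_iff_of_nonneg (Nat.cast_nonneg _)).2 fun i => ?_) h1
  refine le_of_eq_of_le ?_ (M.abs_tv_le ((φ p)⁻¹ * φ (p * g)) i)
  simp only [chi, Core.tv, map_mul, map_inv, toAdd_mul, toAdd_inv, Pi.sub_apply, Pi.add_apply, Pi.neg_apply,
    Real.norm_eq_abs]
  push_cast
  ring_nf

omit M in
theorem ud_int {G : Type*} [MeasurableSpace G] {μ : Measure G} [IsProbabilityMeasure μ] {X : G → Fin k → ℝ}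
    (hX : Measurable X) {B : ℝ} (hB : ∀ p, ‖X p‖ ≤ B) : Integrable (fun p => X p ⬝ᵥ X p) μ :=
  Integrable.of_bound ((continuous_id.dotProduct continuous_id).measurable.comp hX).aestronglyMeasurable (k * B ^ 2)
    (.of_forall fun p => by
      rw [Real.norm_of_nonneg ((sq_nonneg _).trans (ud_sq_le _))]
      exact ud_dot_le _ (hB p))

/-- `exists_smooth` for `a = chi ∘ φ m` (`‖chi x‖ ≤ len x` by `abs_tv_le`), `C₀ = 2 C`, `exists_ult`; `up`: Chebyshev with `‖v‖ ^ 2 ≤ v ⬝ᵥ v`;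
`low`: `v ⬝ᵥ v ≤ k ‖v‖ ^ 2` and split the integral (the set is measurable). -/
theorem exists_lim (K : ℝ) : ∃ C₀ : ℝ, 0 ≤ C₀ ∧ ∀ (𝒰 : Ultrafilter ℕ) (f : ℕ → M.QP K) (μ : ℕ → Measure M.G), (∀ m, IsProbabilityMeasure (μ m)) →
    (∀ r η : ℝ, 0 < η → ∀ᶠ m in (𝒰 : Filter ℕ), Inv (μ m) (M.ballR r) η) →
    ∃ (𝓗 : Type) (_ : NormedAddCommGroup 𝓗) (_ : InnerProductSpace ℝ 𝓗) (_ : CompleteSpace 𝓗) (π : M.G →* (𝓗 ≃ₗᵢ[ℝ] 𝓗)) (c : M.G → 𝓗),
      Coc π ⊤ c ∧ Continuous c ∧ (∀ v, Continuous fun g => π g v) ∧ M.Lim 𝒰 (fun m => (f m).φ) μ C₀ c := by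
  obtain ⟨C, O, hC, hO, H⟩ := M.exists_smooth K
  refine ⟨2 * C, by positivity, fun 𝒰 f μ hμ hi => ?_⟩
  choose F hF hFa hFO using fun m => H (fun p => M.chi ((f m).φ p)) (M.ud_chi.comp (f m).mφ) (M.ud_cc (f m).lφ)
  have hd : ∀ m p g, ‖F m (p * g) - F m p - M.cc (f m).φ g p‖ ≤ 2 * C := fun m p g => by
    have e : F m (p * g) - F m p - M.cc (f m).φ g p =
        (F m (p * g) - M.chi ((f m).φ (p * g))) - (F m p - M.chi ((f m).φ p)) := by
      simp only [cc]
      abel
    rw [e]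
    linarith [norm_sub_le (F m (p * g) - M.chi ((f m).φ (p * g))) (F m p - M.chi ((f m).φ p)), hFa m (p * g), hFa m p]
  have hd' : ∀ m p g, ‖F m (p * g) - F m p‖ ≤ ‖M.cc (f m).φ g p‖ + 2 * C := fun m p g => by
    linarith [norm_sub_norm_le (F m (p * g) - F m p) (M.cc (f m).φ g p), hd m p g]
  have hb : ∀ g m p, ‖F m (p * g) - F m p‖ ≤ K * M.len g + K + 2 * C := fun g m p =>
    (hd' m p g).trans (add_le_add (M.ud_cc (f m).lφ p g) le_rfl)
  have hm : ∀ m g, Measurable fun p => F m (p * g) - F m p := fun m g => ((hF m).comp (measurable_mul_const g)).sub (hF m)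
  obtain ⟨𝓗, i1, i2, i3, π, c, h1, h2, h3, h4⟩ := exists_ult 𝒰 μ hμ F hF (fun g => ⟨_, hb g⟩)
    (fun ε hε => mem_of_superset (hO ε hε) fun g hg m p => hFO m ε hε p g hg)
    fun g η hη => (hi (M.len g) η hη).mono fun m hm s hs => hm s (by rw [mem_singleton_iff.1 hs]; exact le_refl (M.len g : ℝ))
  refine ⟨𝓗, i1, i2, i3, π, c, h1, h2, h3, fun ι _ a g t δ ht hδ => ?_, fun g t δ B ht hδ hB hs => ?_⟩
  · have ht2 : 0 < t ^ 2 := by positivity
    filter_upwards [(h4 ι a g).eventually (gt_mem_nhds (lt_add_of_pos_right _ (mul_pos hδ ht2)))] with m hm'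
    have := hμ m
    have hI : Integrable (fun p => (∑ l, a l • (F m (p * g l) - F m p)) ⬝ᵥ (∑ l, a l • (F m (p * g l) - F m p))) (μ m) :=
      ud_int (Finset.measurable_sum _ fun l _ => (hm m (g l)).const_smul (a l))
        (B := ∑ l, |a l| * (K * M.len (g l) + K + 2 * C)) fun p => norm_sum_le_of_le _ fun l _ => by
          rw [norm_smul]
          exact mul_le_mul_of_nonneg_left (hb _ _ _) (abs_nonneg _)
    have h5 := mul_meas_ge_le_integral_of_nonneg (.of_forall fun p => (sq_nonneg _).trans (ud_sq_le _)) hI (t ^ 2)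
    refine (measure_mono (t := {p | t ^ 2 ≤ (∑ l, a l • (F m (p * g l) - F m p)) ⬝ᵥ (∑ l, a l • (F m (p * g l) - F m p))})
      fun p hp => ?_).trans ?_
    · refine le_trans (pow_le_pow_left₀ ht.le ?_ 2) (ud_sq_le _)
      have h6 : ‖∑ l, a l • (F m (p * g l) - F m p) - ∑ l, a l • M.cc (f m).φ (g l) p‖ ≤ ∑ l, |a l| * (2 * C) := by
        rw [← Finset.sum_sub_distrib]
        refine norm_sum_le_of_le _ fun l _ => ?_
        rw [← smul_sub, norm_smul]
        exact mul_le_mul_of_nonneg_left (hd _ _ _) (abs_nonneg _)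
      rw [← Finset.sum_mul, norm_sub_rev] at h6
      have h7 : t + 2 * C * ∑ l, |a l| < ‖∑ l, a l • M.cc (f m).φ (g l) p‖ := hp
      linarith [norm_sub_norm_le (∑ l, a l • M.cc (f m).φ (g l) p) (∑ l, a l • (F m (p * g l) - F m p))]
    · rw [← ofReal_measureReal]
      refine ENNReal.ofReal_le_ofReal (le_of_mul_le_mul_left (h5.trans (hm'.le.trans_eq ?_)) ht2)
      field_simp
  · have h5 := h4 Unit (fun _ => 1) fun _ => g
    simp only [Finset.univ_unique, Finset.sum_singleton, one_smul] at h5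
    refine le_of_tendsto h5 (hs.mono fun m hm' => ?_)
    have := hμ m
    have hS : MeasurableSet {p | t ≤ ‖M.cc (f m).φ g p‖} := measurableSet_le measurable_const
      ((M.ud_chi.comp ((f m).mφ.comp (measurable_mul_const g))).sub (M.ud_chi.comp (f m).mφ)).norm
    have h6 : (μ m).real {p | t ≤ ‖M.cc (f m).φ g p‖} ≤ δ := ENNReal.toReal_le_of_le_ofReal hδ hm'
    have hI := (integrable_const (μ := μ m) ((B + 2 * C) ^ 2)).indicator hS
    refine (integral_mono (g := fun p => k * ((t + 2 * C) ^ 2 +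
      {p | t ≤ ‖M.cc (f m).φ g p‖}.indicator (fun _ => (B + 2 * C) ^ 2) p)) (ud_int (hm m g) (hb g m))
      (((integrable_const _).add hI).const_mul _) fun p => ?_).trans ?_
    · by_cases hp : t ≤ ‖M.cc (f m).φ g p‖
      · refine (ud_dot_le _ ((hd' m p g).trans (add_le_add (hB m p) le_rfl))).trans ?_
        beta_reduce
        rw [indicator_of_mem (show p ∈ {p | t ≤ ‖M.cc (f m).φ g p‖} from hp)]
        exact mul_le_mul_of_nonneg_left (le_add_of_nonneg_left (sq_nonneg _)) (Nat.cast_nonneg _)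
      · refine (ud_dot_le _ ((hd' m p g).trans (add_le_add (not_le.1 hp).le le_rfl))).trans_eq ?_
        beta_reduce
        rw [indicator_of_notMem (show p ∉ {p | t ≤ ‖M.cc (f m).φ g p‖} from hp), add_zero]
    · rw [integral_const_mul, integral_add (integrable_const _) hI, integral_indicator_const _ hS, integral_const]
      simp only [probReal_univ, smul_eq_mul, one_mul]
      exact mul_le_mul_of_nonneg_left (add_le_add le_rfl ((mul_comm _ _).trans_le
        (mul_le_mul_of_nonneg_left h6 (sq_nonneg _)))) (Nat.cast_nonneg _)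

end Model

end Crest.Agent.R182
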